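import Mathlib

namespace Vale.Agent.P052

/-- Mod two cochains on lists. -/
abbrev Co (α : Type) := List α → ZMod 2

/-- Coboundary: sum of the values on all lists obtained by deleting one entry. -/
def cob {α : Type} : Co α → List α → ZMod 2
  | _, [] => 0
  | φ, v :: l => φ l + cob (fun l' => φ (v :: l')) l

/-- Transposed prism operator. -/
def pri {α β : Type} (f g : α → β) : Co β → List α → ZMod 2
  | _, [] => 0
  | φ, v :: l => φ (f v :: g v :: l.map g) + pri f g (fun l' => φ (f v :: l')) l

theorem two_self (x : ZMod 2) : x + x = 0 := by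
  have : (2 : ZMod 2) = 0 := rfl
  linear_combination x * this

theorem cob_add {α : Type} (l : List α) : ∀ φ ψ : Co α,
    cob (fun l' => φ l' + ψ l') l = cob φ l + cob ψ l := by
  induction l with
  | nil => intro φ ψ; simp [cob]
  | cons v l ih =>
    intro φ ψ
    simp only [cob]
    rw [ih (fun l' => φ (v :: l')) (fun l' => ψ (v :: l'))]
    ring

theorem cob_zero {α : Type} (l : List α) : cob (fun _ => 0) l = 0 := by
  induction l with
  | nil => simp [cob]
  | cons v l ih => simp [cob, ih]

theorem cob_map {α β : Type} (f : α → β) (l : List α) : ∀ φ : Co β,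
    cob (fun l' => φ (l'.map f)) l = cob φ (l.map f) := by
  induction l with
  | nil => intro φ; simp [cob]
  | cons v l ih =>
    intro φ
    simp only [cob, List.map_cons]
    rw [ih (fun l' => φ (f v :: l'))]

theorem pri_add {α β : Type} (f g : α → β) (l : List α) : ∀ φ ψ : Co β,
    pri f g (fun l' => φ l' + ψ l') l = pri f g φ l + pri f g ψ l := by
  induction l with
  | nil => intro φ ψ; simp [pri]
  | cons v l ih =>
    intro φ ψ
    simp only [pri]
    rw [ih (fun l' => φ (f v :: l')) (fun l' => ψ (f v :: l'))]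
    ring

theorem pri_cob {α β : Type} (f g : α → β) (l : List α) : ∀ φ : Co β,
    pri f g (cob φ) l + cob (pri f g φ) l = φ (l.map f) + φ (l.map g) := by
  induction l with
  | nil => intro φ; simp [pri, cob, two_self]
  | cons v l ih =>
    intro φ
    have h1 := ih (fun l' => φ (f v :: l'))
    have h2 : pri f g (fun l' => cob φ (f v :: l')) l
        = pri f g φ l + pri f g (cob (fun l' => φ (f v :: l'))) l := by
      rw [← pri_add]; rfl
    have h3 : cob (fun l' => pri f g φ (v :: l')) l
        = cob (fun l' => φ (f v :: g v :: l')) (l.map g)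
          + cob (pri f g (fun l' => φ (f v :: l'))) l := by
      rw [← cob_map g l (fun l' => φ (f v :: g v :: l')), ← cob_add]; rfl
    have h4 : pri f g (cob φ) (v :: l) = (φ (g v :: l.map g) + (φ (f v :: l.map g)
        + cob (fun l' => φ (f v :: g v :: l')) (l.map g)))
        + pri f g (fun l' => cob φ (f v :: l')) l := rfl
    have h5 : cob (pri f g φ) (v :: l) = pri f g φ l + cob (fun l' => pri f g φ (v :: l')) l := rfl
    rw [h4, h5, h2, h3, List.map_cons, List.map_cons]
    have e1 := two_self (pri f g φ l)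
    have e2 := two_self (cob (fun l' => φ (f v :: g v :: l')) (l.map g))
    have e3 := two_self (φ (f v :: l.map g))
    linear_combination h1 + e1 + e2 + e3

theorem pri_eq_zero {α β : Type} (f g : α → β) (l : List α) : ∀ φ : Co β,
    (∀ l' : List β, l'.length = l.length + 1 → (∀ u ∈ l', ∃ v ∈ l, u = f v ∨ u = g v) → φ l' = 0) →
    pri f g φ l = 0 := by
  induction l with
  | nil => intro φ _; simp [pri]
  | cons v l ih =>
    intro φ h
    simp only [pri]
    rw [h (f v :: g v :: l.map g) (by simp) ?_, ih (fun l' => φ (f v :: l')) ?_]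
    · simp
    · intro l' hl' hu
      apply h _ (by simp [hl'])
      intro u hu'
      rcases List.mem_cons.1 hu' with rfl | hu'
      · exact ⟨v, by simp, Or.inl rfl⟩
      · obtain ⟨w, hw, h'⟩ := hu u hu'
        exact ⟨w, by simp [hw], h'⟩
    · intro u hu
      simp only [List.mem_cons, List.mem_map] at hu
      rcases hu with rfl | rfl | ⟨w, hw, rfl⟩
      · exact ⟨v, by simp, Or.inl rfl⟩
      · exact ⟨v, by simp, Or.inr rfl⟩
      · exact ⟨w, by simp [hw], Or.inr rfl⟩

/-- A tower of hemisphere chains, given as additive functionals on cochains. -/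
structure Tower (α : Type) (a : α → α) (Q : ℕ → List α → Prop) (n : ℕ) where
  L : ℕ → Co α → ZMod 2
  add : ∀ k φ ψ, L k (fun l => φ l + ψ l) = L k φ + L k ψ
  zero : ∀ φ, L 0 (cob φ) = φ []
  succ : ∀ k, k < n → ∀ φ, L (k + 1) (cob φ) = L k φ + L k (fun l => φ (l.map a))
  supp : ∀ k, k ≤ n → ∀ φ, (∀ l, Q k l → φ l = 0) → L k φ = 0

abbrev E (n : ℕ) := EuclideanSpace ℝ (Fin n)

/-- Small lists on the unit sphere, used during the construction. -/
def SmallK (n : ℕ) (δ : ℝ) (k : ℕ) (l : List (E (n + 1))) : Prop :=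
  l.length = k + 1 ∧ (∀ v ∈ l, ‖v‖ = 1 ∧ ∀ j : Fin (n + 1), k < j.val → v j = 0) ∧
    ∀ v ∈ l, ∀ w ∈ l, ‖v - w‖ ≤ k * δ

noncomputable def pole (n k : ℕ) : E (n + 1) :=
  if h : k < n + 1 then EuclideanSpace.single ⟨k, h⟩ 1 else 0

noncomputable def rot (n k : ℕ) (θ : ℝ) (v : E (n + 1)) : E (n + 1) :=
  Real.cos θ • v + Real.sin θ • pole n k

noncomputable def ang (N t : ℕ) : ℝ := (t : ℝ) * (Real.pi / 2) / N

noncomputable def towerL (n N : ℕ) : ℕ → Co (E (n + 1)) → ZMod 2
  | 0, φ => φ [pole n 0]
  | k + 1, φ => ∑ t ∈ Finset.range N,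
      (towerL n N k (pri (rot n (k + 1) (ang N t)) (rot n (k + 1) (ang N (t + 1))) φ)
        + towerL n N k (fun l => pri (rot n (k + 1) (ang N t)) (rot n (k + 1) (ang N (t + 1))) φ
            (l.map Neg.neg)))

theorem towerL_add (n N k : ℕ) : ∀ φ ψ : Co (E (n + 1)),
    towerL n N k (fun l => φ l + ψ l) = towerL n N k φ + towerL n N k ψ := by
  induction k with
  | zero => intro φ ψ; simp [towerL]
  | succ k ih =>
    intro φ ψ
    simp only [towerL]
    rw [← Finset.sum_add_distrib]
    refine Finset.sum_congr rfl fun t _ => ?_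
    set f := rot n (k + 1) (ang N t)
    set g := rot n (k + 1) (ang N (t + 1))
    have e : pri f g (fun l => φ l + ψ l) = fun l => pri f g φ l + pri f g ψ l :=
      funext fun l => pri_add f g l φ ψ
    rw [e, ih, ih (fun l => pri f g φ (l.map Neg.neg)) (fun l => pri f g ψ (l.map Neg.neg))]
    ring

/-- The symmetrised functional. -/
noncomputable def towerY (n N k : ℕ) (φ : Co (E (n + 1))) : ZMod 2 :=
  towerL n N k φ + towerL n N k (fun l => φ (l.map Neg.neg))

theorem towerY_add (n N k : ℕ) (φ ψ : Co (E (n + 1))) :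
    towerY n N k (fun l => φ l + ψ l) = towerY n N k φ + towerY n N k ψ := by
  unfold towerY
  rw [towerL_add, towerL_add n N k (fun l => φ (l.map Neg.neg)) (fun l => ψ (l.map Neg.neg))]
  ring

theorem towerL_succ_of (n N k : ℕ) (hN : 0 < N)
    (hY : ∀ φ, towerY n N k (cob φ) = 0) (φ : Co (E (n + 1))) :
    towerL n N (k + 1) (cob φ) = towerY n N k φ := by
  have key : ∀ t, towerY n N k (pri (rot n (k + 1) (ang N t)) (rot n (k + 1) (ang N (t + 1))) (cob φ))
      = towerY n N k (fun l => φ (l.map (rot n (k + 1) (ang N (t + 1)))))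
        - towerY n N k (fun l => φ (l.map (rot n (k + 1) (ang N t)))) := by
    intro t
    set f := rot n (k + 1) (ang N t)
    set g := rot n (k + 1) (ang N (t + 1))
    have e : (fun l => pri f g (cob φ) l + cob (pri f g φ) l)
        = fun l => φ (l.map f) + φ (l.map g) := funext fun l => pri_cob f g l φ
    have h1 := towerY_add n N k (pri f g (cob φ)) (cob (pri f g φ))
    have h2 := towerY_add n N k (fun l => φ (l.map f)) (fun l => φ (l.map g))
    rw [e, h2, hY] at h1
    have e1 := two_self (towerY n N k (fun l => φ (l.map f)))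
    linear_combination e1 - h1
  have h0 : towerL n N (k + 1) (cob φ) = ∑ t ∈ Finset.range N,
      towerY n N k (pri (rot n (k + 1) (ang N t)) (rot n (k + 1) (ang N (t + 1))) (cob φ)) := rfl
  rw [h0, Finset.sum_congr rfl fun t _ => key t,
    Finset.sum_range_sub (fun t => towerY n N k (fun l => φ (l.map (rot n (k + 1) (ang N t)))))]
  have hr0 : rot n (k + 1) (ang N 0) = id := by
    funext v; simp [rot, ang]
  have hrN : rot n (k + 1) (ang N N) = fun _ => pole n (k + 1) := by
    funext v
    have : ang N N = Real.pi / 2 := by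
      unfold ang; field_simp
    simp [rot, this]
  rw [hr0, hrN]
  have hz : towerY n N k (fun l => φ (l.map fun _ => pole n (k + 1))) = 0 := by
    unfold towerY
    have : (fun l : List (E (n + 1)) => φ ((l.map Neg.neg).map fun _ => pole n (k + 1)))
        = fun l => φ (l.map fun _ => pole n (k + 1)) := by
      funext l; simp [Function.comp_def]
    rw [this, two_self]
  rw [hz]
  have e1 := two_self (towerY n N k φ)
  simp only [List.map_id]
  linear_combination -e1

theorem towerY_cob (n N : ℕ) (hN : 0 < N) (k : ℕ) : ∀ φ, towerY n N k (cob φ) = 0 := by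
  induction k with
  | zero => intro φ; simp [towerY, towerL, cob, two_self]
  | succ k ih =>
    intro φ
    unfold towerY
    have e : (fun l : List (E (n + 1)) => cob φ (l.map Neg.neg))
        = cob (fun l => φ (l.map Neg.neg)) := funext fun l => (cob_map _ l φ).symm
    rw [e, towerL_succ_of n N k hN ih, towerL_succ_of n N k hN ih]
    unfold towerY
    have : (fun l : List (E (n + 1)) => φ ((l.map Neg.neg).map Neg.neg)) = φ := by
      funext l; simp
    simp only [this]
    have e1 := two_self (towerL n N k φ)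
    have e2 := two_self (towerL n N k fun l => φ (l.map Neg.neg))
    linear_combination e1 + e2

theorem rot_norm (n k : ℕ) (hk : k < n + 1) (θ : ℝ) (v : E (n + 1)) (hv : ‖v‖ = 1)
    (h0 : v ⟨k, hk⟩ = 0) : ‖rot n k θ v‖ = 1 := by
  have hp : pole n k = EuclideanSpace.single ⟨k, hk⟩ 1 := by simp [pole, hk]
  have hpn : ‖pole n k‖ = 1 := by rw [hp]; simp
  have hin : inner ℝ v (pole n k) = 0 := by
    rw [hp, EuclideanSpace.inner_single_right]; simp [h0]
  have : ‖rot n k θ v‖ ^ 2 = 1 := by
    unfold rot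
    rw [norm_add_sq_real, inner_smul_left, inner_smul_right, hin, norm_smul, norm_smul, hv, hpn]
    simp
  have h2 := norm_nonneg (rot n k θ v)
  nlinarith

theorem rot_dist (n k : ℕ) (θ θ' : ℝ) (v w : E (n + 1)) (hw : ‖w‖ = 1) :
    ‖rot n k θ v - rot n k θ' w‖ ≤ ‖v - w‖ + 2 * |θ - θ'| := by
  have hpn : ‖pole n k‖ ≤ 1 := by
    unfold pole; split_ifs <;> simp
  have e : rot n k θ v - rot n k θ' w
      = Real.cos θ • (v - w) + (Real.cos θ - Real.cos θ') • w
        + (Real.sin θ - Real.sin θ') • pole n k := by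
    unfold rot; module
  rw [e]
  have h1 : ‖Real.cos θ • (v - w)‖ ≤ ‖v - w‖ := by
    rw [norm_smul]
    exact mul_le_of_le_one_left (norm_nonneg _) (by simpa using Real.abs_cos_le_one θ)
  have h2 : ‖(Real.cos θ - Real.cos θ') • w‖ ≤ |θ - θ'| := by
    rw [norm_smul, hw, mul_one]; exact Real.abs_cos_sub_cos_le θ θ'
  have h3 : ‖(Real.sin θ - Real.sin θ') • pole n k‖ ≤ |θ - θ'| := by
    rw [norm_smul]
    exact (mul_le_of_le_one_right (norm_nonneg _) hpn).trans (Real.abs_sin_sub_sin_le θ θ')
  have := norm_add₃_le (a := Real.cos θ • (v - w)) (b := (Real.cos θ - Real.cos θ') • w)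
    (c := (Real.sin θ - Real.sin θ') • pole n k)
  linarith

theorem smallK_neg (n : ℕ) (δ : ℝ) (k : ℕ) (l : List (E (n + 1))) (h : SmallK n δ k l) :
    SmallK n δ k (l.map Neg.neg) := by
  obtain ⟨h1, h2, h3⟩ := h
  refine ⟨by simpa using h1, ?_, ?_⟩
  · intro v hv
    obtain ⟨w, hw, rfl⟩ := List.mem_map.1 hv
    exact ⟨by simpa using (h2 w hw).1, fun j hj => by simp [(h2 w hw).2 j hj]⟩
  · intro v hv w hw
    obtain ⟨v', hv', rfl⟩ := List.mem_map.1 hv
    obtain ⟨w', hw', rfl⟩ := List.mem_map.1 hw
    have := h3 w' hw' v' hv'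
    rwa [show -v' - -w' = w' - v' by abel]

theorem towerL_supp (n N : ℕ) (δ : ℝ) (hN : 0 < N) (hδ : Real.pi / N ≤ δ) (k : ℕ) :
    k ≤ n → ∀ φ, (∀ l, SmallK n δ k l → φ l = 0) → towerL n N k φ = 0 := by
  induction k with
  | zero =>
    intro _ φ h
    apply h
    have hp : pole n 0 = EuclideanSpace.single 0 1 := by simp [pole]
    refine ⟨rfl, ?_, ?_⟩
    · intro v hv
      rw [List.mem_singleton.1 hv, hp]
      refine ⟨by simp, fun j hj => ?_⟩
      have : j ≠ 0 := by rintro rfl; simp at hj
      simp [this]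
    · intro v hv w hw
      rw [List.mem_singleton.1 hv, List.mem_singleton.1 hw]; simp
  | succ k ih =>
    intro hk φ h
    have hk' : k + 1 < n + 1 := by omega
    have main : ∀ t l, SmallK n δ k l →
        pri (rot n (k + 1) (ang N t)) (rot n (k + 1) (ang N (t + 1))) φ l = 0 := by
      intro t l hl
      apply pri_eq_zero
      intro l' hl' hu
      apply h
      obtain ⟨h1, h2, h3⟩ := hl
      have hang : |ang N t - ang N (t + 1)| ≤ δ / 2 := by
        have hN' : (0 : ℝ) < N := by exact_mod_cast hN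
        have : ang N t - ang N (t + 1) = -(Real.pi / N / 2) := by
          unfold ang; push_cast; field_simp; ring
        rw [this, abs_neg, abs_of_nonneg (by positivity)]
        linarith
      have hδ0 : 0 ≤ δ := le_trans (by positivity) hδ
      refine ⟨by omega, ?_, ?_⟩
      · intro u hu'
        obtain ⟨v, hv, h'⟩ := hu u hu'
        have hv0 : v ⟨k + 1, hk'⟩ = 0 := (h2 v hv).2 _ (by simp)
        have hc : ∀ θ, ∀ j : Fin (n + 1), k + 1 < j.val → rot n (k + 1) θ v j = 0 := by
          intro θ j hj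
          have hj1 : v j = 0 := (h2 v hv).2 j (by omega)
          have hj2 : j ≠ ⟨k + 1, hk'⟩ := by rintro rfl; simp at hj
          simp [rot, pole, hk', hj1, hj2]
        rcases h' with rfl | rfl
        · exact ⟨rot_norm n _ hk' _ v (h2 v hv).1 hv0, hc _⟩
        · exact ⟨rot_norm n _ hk' _ v (h2 v hv).1 hv0, hc _⟩
      · intro u hu' u' hu''
        obtain ⟨v, hv, h'⟩ := hu u hu'
        obtain ⟨w, hw, h''⟩ := hu u' hu''
        have hvw := h3 v hv w hw
        have hw1 := (h2 w hw).1
        push_cast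
        rcases h' with rfl | rfl <;> rcases h'' with rfl | rfl
        · have := rot_dist n (k + 1) (ang N t) (ang N t) v w hw1
          simp only [sub_self, abs_zero] at this; linarith
        · have := rot_dist n (k + 1) (ang N t) (ang N (t + 1)) v w hw1
          linarith
        · have := rot_dist n (k + 1) (ang N (t + 1)) (ang N t) v w hw1
          rw [abs_sub_comm] at this; linarith
        · have := rot_dist n (k + 1) (ang N (t + 1)) (ang N (t + 1)) v w hw1
          simp only [sub_self, abs_zero] at this; linarith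
    simp only [towerL]
    apply Finset.sum_eq_zero
    intro t _
    rw [ih (by omega) _ (main t), ih (by omega) _ (fun l hl => main t _ (smallK_neg n δ k l hl))]
    simp

/-- Small lists of unit vectors. -/
def Small (n : ℕ) (δ : ℝ) (k : ℕ) (l : List (E n)) : Prop :=
  l.length = k + 1 ∧ (∀ v ∈ l, ‖v‖ = 1) ∧ ∀ v ∈ l, ∀ w ∈ l, ‖v - w‖ ≤ δ

theorem exists_tower (n : ℕ) (δ : ℝ) (hδ : 0 < δ) :
    Nonempty (Tower (E (n + 1)) Neg.neg (Small (n + 1) δ) n) := by
  obtain ⟨N, hN⟩ := exists_nat_gt (Real.pi * (n + 1) / δ)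
  have hN0 : (0 : ℝ) < N := lt_of_le_of_lt (by positivity) hN
  have hN1 : 0 < N := by exact_mod_cast hN0
  have hle : Real.pi / N ≤ δ / (n + 1) := by
    rw [div_lt_iff₀ hδ] at hN
    rw [div_le_div_iff₀ hN0 (by positivity)]
    linarith
  refine ⟨⟨towerL n N, towerL_add n N, fun φ => by simp [towerL, cob], fun k _ φ =>
    towerL_succ_of n N k hN1 (towerY_cob n N hN1 k) φ, fun k hk φ h => ?_⟩⟩
  apply towerL_supp n N (δ / (n + 1)) hN1 hle k hk
  intro l hl
  apply h
  refine ⟨hl.1, fun v hv => (hl.2.1 v hv).1, fun v hv w hw => (hl.2.2 v hv w hw).trans ?_⟩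
  have : (k : ℝ) ≤ n + 1 := by exact_mod_cast (by omega : k ≤ n + 1)
  rw [mul_div_assoc', div_le_iff₀ (by positivity)]
  nlinarith

end Vale.Agent.P052
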