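import Vale.Agent.P052.Chains

namespace Vale.Agent.P052

open Finset

/-- Coordinates of symmetric four by four matrices. -/
def idx : Fin 4 → Fin 4 → Fin 10 := ![![0, 1, 2, 3], ![1, 4, 5, 6], ![2, 5, 7, 8], ![3, 6, 8, 9]]

theorem idx_symm : ∀ i j, idx i j = idx j i := by decide

theorem idx_surj : ∀ k, ∃ i j, idx i j = k := by decide

/-- The symmetric bilinear form with coordinates `m`. -/
def bil (m : E 10) (x y : E 4) : ℝ := ∑ i, ∑ j, m (idx i j) * x i * y j

theorem bil_symm (m : E 10) (x y : E 4) : bil m x y = bil m y x := by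
  unfold bil
  rw [sum_comm]
  refine sum_congr rfl fun i _ => sum_congr rfl fun j _ => ?_
  rw [idx_symm]; ring

theorem bil_sub (m m' : E 10) (x y : E 4) : bil (m - m') x y = bil m x y - bil m' x y := by
  unfold bil
  rw [← sum_sub_distrib]
  refine sum_congr rfl fun i _ => ?_
  rw [← sum_sub_distrib]
  refine sum_congr rfl fun j _ => ?_
  simp only [PiLp.sub_apply]; ring

theorem bil_neg (m : E 10) (x y : E 4) : bil (-m) x y = -bil m x y := by
  unfold bil
  rw [← sum_neg_distrib]
  refine sum_congr rfl fun i _ => ?_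
  rw [← sum_neg_distrib]
  refine sum_congr rfl fun j _ => ?_
  simp only [PiLp.neg_apply]; ring

theorem coord_le {n : ℕ} (x : E n) (i : Fin n) : |x i| ≤ ‖x‖ := by
  simpa using PiLp.norm_apply_le x i

theorem bil_le (m : E 10) (x y : E 4) (hx : ‖x‖ = 1) (hy : ‖y‖ = 1) : |bil m x y| ≤ 16 * ‖m‖ := by
  unfold bil
  have h : ∀ i j, |m (idx i j) * x i * y j| ≤ ‖m‖ := by
    intro i j
    rw [abs_mul, abs_mul]
    have h1 := coord_le m (idx i j)
    have h2 := coord_le x i
    have h3 := coord_le y j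
    rw [hx] at h2; rw [hy] at h3
    calc |m (idx i j)| * |x i| * |y j| ≤ ‖m‖ * 1 * 1 := by gcongr
      _ = ‖m‖ := by ring
  calc |∑ i, ∑ j, m (idx i j) * x i * y j| ≤ ∑ i, |∑ j, m (idx i j) * x i * y j| :=
        abs_sum_le_sum_abs _ _
    _ ≤ ∑ _i : Fin 4, ∑ _j : Fin 4, ‖m‖ :=
        sum_le_sum fun i _ => (abs_sum_le_sum_abs _ _).trans (sum_le_sum fun j _ => h i j)
    _ = 16 * ‖m‖ := by simp; ring

theorem inner_eq (x y : E 4) : inner ℝ x y = ∑ i, x i * y i := by
  rw [PiLp.inner_apply]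
  exact sum_congr rfl fun i _ => by simp [mul_comm]

theorem exists_eig (m : E 10) (hm : ‖m‖ = 1) :
    ∃ (t : ℝ) (x : E 4), ‖x‖ = 1 ∧ 1 / 16 ≤ |t| ∧ ∀ y, bil m x y = t * inner ℝ x y := by
  let A : Matrix (Fin 4) (Fin 4) ℝ := Matrix.of fun i j => m (idx i j)
  have hA : A.IsHermitian := by
    ext i j; simp [A, idx_symm i j]
  let b := hA.eigenvectorBasis
  have hb : ∀ k y, bil m (b k) y = hA.eigenvalues k * inner ℝ (b k) y := by
    intro k y
    have h1 := hA.mulVec_eigenvectorBasis k
    rw [bil_symm, inner_eq, mul_sum]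
    unfold bil
    refine sum_congr rfl fun i _ => ?_
    have h2 := congrFun h1 i
    simp only [Matrix.mulVec, dotProduct, A, Matrix.of_apply, Pi.smul_apply, smul_eq_mul] at h2
    calc ∑ j, m (idx i j) * y i * b k j = (∑ j, m (idx i j) * b k j) * y i := by
          rw [sum_mul]; exact sum_congr rfl fun j _ => by ring
      _ = hA.eigenvalues k * (b k i * y i) := by
          rw [← mul_assoc]; congr 1
  by_contra hn
  push Not at hn
  have hsmall : ∀ k, |hA.eigenvalues k| ≤ 1 / 16 := by
    intro k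
    by_contra h
    obtain ⟨y, hy⟩ := hn (hA.eigenvalues k) (b k) (b.orthonormal.1 k) (le_of_lt (not_le.1 h))
    exact hy (hb k y)
  have hent : ∀ i j, |m (idx i j)| ≤ 1 / 4 := by
    intro i j
    have e1 : ∀ l, (EuclideanSpace.single i (1 : ℝ) : E 4) l = ∑ k, b k i * b k l := by
      intro l
      have := b.sum_repr' (EuclideanSpace.single i (1 : ℝ))
      conv_lhs => rw [← this]
      simp [EuclideanSpace.inner_single_right]
    have e2 : m (idx i j) = ∑ k, b k i * bil m (b k) (EuclideanSpace.single j 1) := by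
      have e3 : ∀ k, bil m (b k) (EuclideanSpace.single j 1) = ∑ l, m (idx l j) * b k l := by
        intro k
        unfold bil
        refine sum_congr rfl fun l _ => ?_
        rw [sum_eq_single j] <;> simp +contextual
      simp only [e3, mul_sum]
      rw [sum_comm]
      have : ∀ l, ∑ k, b k i * (m (idx l j) * b k l) = m (idx l j) * (EuclideanSpace.single i (1 : ℝ) : E 4) l := by
        intro l
        rw [e1, mul_sum]; exact sum_congr rfl fun k _ => by ring
      simp only [this]
      rw [sum_eq_single i] <;> simp +contextual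
    rw [e2]
    have h : ∀ k, |b k i * bil m (b k) (EuclideanSpace.single j 1)| ≤ 1 / 16 := by
      intro k
      rw [hb, EuclideanSpace.inner_single_right, abs_mul, abs_mul]
      have h1 := coord_le (b k) i
      have h2 := coord_le (b k) j
      rw [b.orthonormal.1 k] at h1 h2
      have h3 := hsmall k
      simp only [one_mul, conj_trivial]
      calc |b k i| * (|hA.eigenvalues k| * |b k j|) ≤ 1 * (1 / 16 * 1) := by gcongr
        _ = 1 / 16 := by ring
    calc _ ≤ ∑ k, |b k i * bil m (b k) (EuclideanSpace.single j 1)| := abs_sum_le_sum_abs _ _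
      _ ≤ ∑ _k : Fin 4, (1 / 16 : ℝ) := sum_le_sum fun k _ => h k
      _ = 1 / 4 := by simp; norm_num
  have hsq : ‖m‖ ^ 2 = ∑ k, m k ^ 2 := by
    rw [EuclideanSpace.norm_sq_eq]; simp
  have : ∑ k, m k ^ 2 ≤ ∑ _k : Fin 10, (1 / 16 : ℝ) := by
    refine sum_le_sum fun k _ => ?_
    obtain ⟨i, j, rfl⟩ := idx_surj k
    have := hent i j
    rw [← sq_abs]
    nlinarith [abs_nonneg (m (idx i j))]
  rw [← hsq, hm] at this
  simp at this
  norm_num at this

theorem exists_selection : ∃ (lam : E 10 → ℝ) (x : E 10 → E 4), ∀ m, ‖m‖ = 1 →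
    ‖x m‖ = 1 ∧ 1 / 16 ≤ |lam m| ∧ (∀ y, bil m (x m) y = lam m * inner ℝ (x m) y) ∧
      lam (-m) = -lam m ∧ x (-m) = x m := by
  classical
  choose! t x h using exists_eig
  let D : E 10 → Prop := fun m => WellOrderingRel m (-m)
  refine ⟨fun m => if D m then t m else -t (-m), fun m => if D m then x m else x (-m), ?_⟩
  intro m hm
  have hm' : ‖-m‖ = 1 := by simpa using hm
  have hne : m ≠ -m := by
    intro h0
    have : m = 0 := by
      have h2 : (2 : ℝ) • m = 0 := by rw [two_smul]; nth_rewrite 2 [h0]; simp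
      simpa using h2
    rw [this] at hm; simp at hm
  have hD : D (-m) ↔ ¬ D m := by
    simp only [D, neg_neg]
    constructor
    · exact fun h1 h2 => asymm h1 h2
    · intro h1
      rcases trichotomous_of WellOrderingRel m (-m) with h2 | h2 | h2
      · exact absurd h2 h1
      · exact absurd h2 hne
      · exact h2
  by_cases hd : D m
  · have hd' : ¬ D (-m) := fun h' => hD.1 h' hd
    simp only [hd, hd', if_true, if_false, neg_neg]
    exact ⟨(h m hm).1, (h m hm).2.1, (h m hm).2.2, trivial, trivial⟩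
  · have hd' : D (-m) := hD.2 hd
    simp only [hd, hd', if_true, if_false, neg_neg, abs_neg]
    refine ⟨(h _ hm').1, (h _ hm').2.1, fun y => ?_, trivial, trivial⟩
    have := (h _ hm').2.2 y
    rw [bil_neg] at this
    linarith

theorem almost_orth {m m' : E 10} {t t' δ : ℝ} {x x' : E 4} (hx : ‖x‖ = 1) (hx' : ‖x'‖ = 1)
    (ht : 1 / 16 ≤ |t|) (ht' : 1 / 16 ≤ |t'|) (h0 : 0 < t) (h0' : ¬ 0 < t')
    (h : ∀ y, bil m x y = t * inner ℝ x y) (h' : ∀ y, bil m' x' y = t' * inner ℝ x' y)
    (hd : ‖m - m'‖ ≤ δ) : |inner ℝ x x'| ≤ 128 * δ := by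
  have h1 := bil_le (m - m') x x' hx hx'
  rw [bil_sub, h, bil_symm m', h', real_inner_comm x x', ← sub_mul, abs_mul] at h1
  rw [abs_of_pos h0] at ht
  rw [abs_of_nonpos (not_lt.1 h0')] at ht'
  rw [abs_of_nonneg (by linarith : 0 ≤ t - t')] at h1
  have h2 := abs_nonneg (inner ℝ x x')
  nlinarith

end Vale.Agent.P052
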