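import Vale.Agent.P052.SetChains

namespace Vale.Agent.P052

open Finset

theorem zmod2_ne_zero {s : ZMod 2} (h : s ≠ 0) : s = 1 := by
  revert s; decide

theorem exists_other {y : Ch} (hy : bd y = 0) {σ : Finset V} (hσ : y σ ≠ 0) {v : V} (hv : v ∈ σ) :
    ∃ u, u ≠ v ∧ u ∉ σ.erase v ∧ y (insert u (σ.erase v)) ≠ 0 := by
  by_contra hn
  push Not at hn
  have h0 : bd y (σ.erase v) = 0 := congrFun hy _
  simp only [bd] at h0
  rw [sum_eq_single v] at h0
  · rw [insert_erase hv] at h0; exact hσ h0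
  · intro u hu huv
    exact hn u huv (mem_compl.1 hu)
  · intro h; exact absurd (mem_compl.2 (notMem_erase v σ)) h

/-- The graph of a sign function. -/
def graph (s : Fin 10 → ZMod 2) : Finset V := univ.image fun i => (i, s i)

theorem mem_graph (s : Fin 10 → ZMod 2) (v : V) : v ∈ graph s ↔ v.2 = s v.1 := by
  obtain ⟨i, t⟩ := v
  simp only [graph, mem_image, mem_univ, true_and, Prod.mk.injEq]
  constructor
  · rintro ⟨j, rfl, rfl⟩; rfl
  · intro h; exact ⟨i, rfl, h.symm⟩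

theorem zmod2_flip {s t : ZMod 2} (h : s ≠ t) : s = t + 1 := by
  revert s t; decide

theorem pk_injOn {k : ℕ} {σ : Finset V} (h : PK k σ) {u v : V} (hu : u ∈ σ) (hv : v ∈ σ)
    (huv : u.1 = v.1) : u = v := by
  by_contra hne
  apply h.2 v hv
  have : u.2 ≠ v.2 := fun h' => hne (Prod.ext huv h')
  have : flip v = u := Prod.ext huv.symm (zmod2_flip this).symm
  rwa [this]

theorem pk_graph {σ : Finset V} (h : PK 9 σ) : ∃ s, σ = graph s := by
  have hc : (σ.image Prod.fst).card = 10 := by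
    rw [card_image_of_injOn fun u hu v hv huv => pk_injOn h hu hv huv, h.1]
  have hu : σ.image Prod.fst = univ := eq_univ_of_card _ (by simpa using hc)
  have hex : ∀ i : Fin 10, ∃ t, (i, t) ∈ σ := by
    intro i
    obtain ⟨v, hv, rfl⟩ := mem_image.1 (hu ▸ mem_univ i : i ∈ σ.image Prod.fst)
    exact ⟨v.2, hv⟩
  choose s hs using hex
  refine ⟨s, ?_⟩
  ext v
  rw [mem_graph]
  constructor
  · intro hv
    have := pk_injOn h hv (hs v.1) rfl
    exact congrArg Prod.snd this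
  · intro hv
    have : v = (v.1, s v.1) := Prod.ext rfl hv
    rw [this]; exact hs _

theorem top_flip {y : Ch} (h : Ess 9 y) {s : Fin 10 → ZMod 2} (hs : y (graph s) ≠ 0) (m : Fin 10) :
    y (graph (Function.update s m (s m + 1))) ≠ 0 := by
  obtain ⟨u, hu1, hu2, hu3⟩ := exists_other (ess_bd h) hs (v := (m, s m)) ((mem_graph _ _).2 rfl)
  have hpk := ess_supp h _ hu3
  have hum : u.1 = m := by
    by_contra hne
    have h1 : (u.1, s u.1) ∈ (graph s).erase (m, s m) :=
      mem_erase.2 ⟨fun h' => hne (congrArg Prod.fst h'), (mem_graph _ _).2 rfl⟩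
    have := pk_injOn hpk (mem_insert_self _ _) (mem_insert_of_mem h1) rfl
    exact hu2 (this ▸ h1)
  have hu : u = (m, s m + 1) :=
    Prod.ext hum (zmod2_flip fun h' => hu1 (Prod.ext hum h'))
  have : graph (Function.update s m (s m + 1)) = insert u ((graph s).erase (m, s m)) := by
    ext ⟨i, t⟩
    rw [hu, mem_insert, mem_erase, mem_graph, mem_graph]
    by_cases hi : i = m
    · subst hi
      simp
    · simp [hi]
  rwa [this]

theorem top_all {y : Ch} (h : Ess 9 y) (s : Fin 10 → ZMod 2) : y (graph s) = 1 := by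
  obtain ⟨σ, hσ⟩ := ess_exists h
  obtain ⟨s0, rfl⟩ := pk_graph (ess_supp h σ hσ)
  have key : ∀ D : Finset (Fin 10), y (graph fun i => if i ∈ D then s0 i + 1 else s0 i) ≠ 0 := by
    intro D
    induction D using Finset.induction_on with
    | empty => simpa using hσ
    | insert m D hm ih =>
      have := top_flip h ih m
      convert this using 2
      congr 1
      funext i
      by_cases hi : i = m
      · subst hi; simp [hm]
      · simp [hi]
  have := key (univ.filter fun i => s i ≠ s0 i)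
  have e : (fun i => if i ∈ univ.filter (fun i => s i ≠ s0 i) then s0 i + 1 else s0 i) = s := by
    funext i
    by_cases hi : s i = s0 i
    · simp [hi]
    · simp [hi, ← zmod2_flip hi]
  rw [e] at this
  exact zmod2_ne_zero this

section twograph

variable (ε : Fin 10 → Fin 10 → ZMod 2)

def Clique (σ : Finset V) : Prop := ∀ u ∈ σ, ∀ v ∈ σ, u.2 + v.2 = ε u.1 v.1

def Good (k : ℕ) (B : Finset (Fin 10)) : Prop :=
  ∃ y, Ess k y ∧ ∀ σ, y σ ≠ 0 → Clique ε σ ∧ ∀ v ∈ σ, v.1 ∈ B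

def par (a b c : Fin 10) : ZMod 2 := ε a b + ε a c + ε b c

def Ev (S : Finset (Fin 10)) : Prop := ∀ a ∈ S, ∀ b ∈ S, ∀ c ∈ S, par ε a b c = 0

variable {ε}

theorem Ev.mono {S T : Finset (Fin 10)} (h : Ev ε T) (hST : S ⊆ T) : Ev ε S :=
  fun a ha b hb c hc => h a (hST ha) b (hST hb) c (hST hc)

theorem clique_ev {σ : Finset V} (h : Clique ε σ) : Ev ε (σ.image Prod.fst) := by
  intro a ha b hb c hc
  obtain ⟨u, hu, rfl⟩ := mem_image.1 ha
  obtain ⟨v, hv, rfl⟩ := mem_image.1 hb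
  obtain ⟨w, hw, rfl⟩ := mem_image.1 hc
  have h1 := h u hu v hv
  have h2 := h u hu w hw
  have h3 := h v hv w hw
  unfold par
  grind

theorem ev_signs {S : Finset (Fin 10)} (h : Ev ε S) :
    ∃ s : Fin 10 → ZMod 2, ∀ i ∈ S, ∀ j ∈ S, s i + s j = ε i j := by
  rcases S.eq_empty_or_nonempty with rfl | ⟨a, ha⟩
  · exact ⟨fun _ => 0, by simp⟩
  · refine ⟨ε a, fun i hi j hj => ?_⟩
    have := h a ha i hi j hj
    unfold par at this
    grind

theorem good_cut {k : ℕ} {B S : Finset (Fin 10)} (h : Good ε (k + 1) B) (hS : Ev ε S) :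
    Good ε k (B \ S) := by
  obtain ⟨y, hy, hsup⟩ := h
  obtain ⟨s, hs⟩ := ev_signs hS
  let Sp : V → Prop := fun v => v.1 ∈ S ∧ v.2 = s v.1
  let Sm : V → Prop := fun v => v.1 ∈ S ∧ v.2 ≠ s v.1
  have hpm : ∀ σ, Clique ε σ → ∀ u ∈ σ, ∀ v ∈ σ, Sp u → Sm v → False := by
    intro σ hσ u hu v hv h1 h2
    have e1 := hσ u hu v hv
    have e2 := hs _ h1.1 _ h2.1
    have e3 := h1.2
    apply h2.2
    grind
  have hfp : ∀ v, Sp (flip v) ↔ Sm v := by
    rintro ⟨i, t⟩
    simp only [Sp, Sm, flip]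
    refine and_congr_right fun _ => ?_
    generalize s i = r
    revert t r; decide
  have hfm : ∀ v, Sm (flip v) ↔ Sp v := by
    intro v; rw [← hfp, flip_flip]
  let P : Finset V → Prop := fun σ => (∃ v ∈ σ, Sp v) ∨ ((¬ ∃ v ∈ σ, Sm v) ∧ P0 σ)
  have himp : ∀ σ : Finset V, (∃ v ∈ σ.image flip, Sp v) ↔ ∃ v ∈ σ, Sm v := by
    intro σ
    constructor
    · rintro ⟨v, hv, h⟩
      obtain ⟨w, hw, rfl⟩ := mem_image.1 hv
      exact ⟨w, hw, (hfp w).1 h⟩
    · rintro ⟨v, hv, h⟩
      exact ⟨flip v, mem_image_of_mem _ hv, (hfp v).2 h⟩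
  have himm : ∀ σ : Finset V, (∃ v ∈ σ.image flip, Sm v) ↔ ∃ v ∈ σ, Sp v := by
    intro σ
    constructor
    · rintro ⟨v, hv, h⟩
      obtain ⟨w, hw, rfl⟩ := mem_image.1 hv
      exact ⟨w, hw, (hfm w).1 h⟩
    · rintro ⟨v, hv, h⟩
      exact ⟨flip v, mem_image_of_mem _ hv, (hfm v).2 h⟩
  have hP : ∀ σ, y σ ≠ 0 → (P σ ↔ ¬ P (σ.image flip)) := by
    intro σ hσ
    have h0 := p0_iff (ess_supp hy σ hσ)
    have h1 : ¬ ((∃ v ∈ σ, Sp v) ∧ ∃ v ∈ σ, Sm v) := by
      rintro ⟨⟨u, hu, h1⟩, ⟨v, hv, h2⟩⟩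
      exact hpm σ (hsup σ hσ).1 u hu v hv h1 h2
    simp only [P, himp, himm]
    generalize (∃ v ∈ σ, Sp v) = A at *
    generalize (∃ v ∈ σ, Sm v) = A' at *
    generalize P0 σ = C at *
    generalize P0 (σ.image flip) = C' at *
    clear * - h0 h1
    by_cases A <;> by_cases A' <;> by_cases C <;> by_cases C' <;> simp_all
  refine ⟨bd (res P y), ess_cut hy (supp_res (ess_supp hy)) (res_split P (ess_inv hy) hP), ?_⟩
  intro τ hτ
  obtain ⟨v, hv, h'⟩ := bd_ne_zero hτ
  have hyv : y (insert v τ) ≠ 0 := by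
    intro h0; apply h'; simp [res, h0]
  have hPv : P (insert v τ) := by
    by_contra hn; apply h'; simp [res, hn]
  obtain ⟨hcl, hB⟩ := hsup _ hyv
  refine ⟨fun a ha b hb => hcl a (mem_insert_of_mem ha) b (mem_insert_of_mem hb), ?_⟩
  intro w hw
  refine mem_sdiff.2 ⟨hB w (mem_insert_of_mem hw), fun hwS => ?_⟩
  by_cases hws : w.2 = s w.1
  · apply hτ
    have : bd (res P y) τ = bd y τ := by
      simp only [bd]
      refine sum_congr rfl fun u _ => ?_
      have : P (insert u τ) := Or.inl ⟨w, mem_insert_of_mem hw, hwS, hws⟩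
      simp [res, this]
    rw [this, ess_bd hy]; rfl
  · rcases hPv with ⟨u, hu, h1⟩ | ⟨h1, _⟩
    · exact hpm _ hcl u hu w (mem_insert_of_mem hw) h1 ⟨hwS, hws⟩
    · exact h1 ⟨w, mem_insert_of_mem hw, hwS, hws⟩

theorem good_zero {B : Finset (Fin 10)} (h : Good ε 0 B) : B.Nonempty := by
  obtain ⟨y, hy, hsup⟩ := h
  obtain ⟨σ, hσ⟩ := ess_exists hy
  obtain ⟨v, hv⟩ : σ.Nonempty := card_pos.1 (by rw [(ess_supp hy σ hσ).1]; omega)
  exact ⟨v.1, (hsup σ hσ).2 v hv⟩

theorem good_pm {k : ℕ} {B : Finset (Fin 10)} (h : Good ε (k + 1) B) :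
    ∃ S ⊆ B, S.card = k + 2 ∧ Ev ε S ∧
      ∀ i ∈ S, ∃ j ∈ B, j ∉ S ∧ Ev ε (insert j (S.erase i)) := by
  obtain ⟨y, hy, hsup⟩ := h
  obtain ⟨σ, hσ⟩ := ess_exists hy
  have hpk := ess_supp hy σ hσ
  obtain ⟨hcl, hB⟩ := hsup σ hσ
  refine ⟨σ.image Prod.fst, ?_, ?_, clique_ev hcl, ?_⟩
  · intro i hi
    obtain ⟨v, hv, rfl⟩ := mem_image.1 hi
    exact hB v hv
  · rw [card_image_of_injOn fun u hu v hv huv => pk_injOn hpk hu hv huv, hpk.1]
  · intro i hi
    obtain ⟨v, hv, rfl⟩ := mem_image.1 hi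
    obtain ⟨u, hu1, hu2, hu3⟩ := exists_other (ess_bd hy) hσ hv
    obtain ⟨hcl', hB'⟩ := hsup _ hu3
    have hpk' := ess_supp hy _ hu3
    refine ⟨u.1, hB' u (mem_insert_self _ _), ?_, (clique_ev hcl').mono ?_⟩
    · intro hu
      obtain ⟨w, hw, hwu⟩ := mem_image.1 hu
      by_cases hwv : w = v
      · subst hwv
        obtain ⟨t, ht⟩ : (σ.erase w).Nonempty := by
          rw [← card_pos, card_erase_of_mem hv, hpk.1]; omega
        have e1 := hcl' u (mem_insert_self _ _) t (mem_insert_of_mem ht)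
        have e2 := hcl w hv t (mem_of_mem_erase ht)
        apply hu1
        refine Prod.ext hwu.symm ?_
        rw [← hwu] at e1
        grind
      · have hw' : w ∈ σ.erase v := mem_erase.2 ⟨hwv, hw⟩
        have := pk_injOn hpk' (mem_insert_self _ _) (mem_insert_of_mem hw') hwu.symm
        exact hu2 (this ▸ hw')
    · intro j hj
      rcases mem_insert.1 hj with rfl | hj
      · exact mem_image_of_mem _ (mem_insert_self _ _)
      · obtain ⟨hjv, hj⟩ := mem_erase.1 hj
        obtain ⟨w, hw, rfl⟩ := mem_image.1 hj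
        refine mem_image_of_mem _ (mem_insert_of_mem (mem_erase.2 ⟨?_, hw⟩))
        rintro rfl; exact hjv rfl

theorem good_one {B : Finset (Fin 10)} (h : Good ε 1 B) : ¬ Ev ε B := by
  intro hB
  have := good_zero (good_cut h hB)
  simp at this

theorem good_two {B S : Finset (Fin 10)} (h : Good ε 2 B) (hS : Ev ε S) : ¬ Ev ε (B \ S) :=
  good_one (good_cut h hS)

theorem ev_base {S : Finset (Fin 10)} {a : Fin 10} (h : ∀ b ∈ S, ∀ c ∈ S, par ε a b c = 0) :
    Ev ε S := by
  intro x hx y hy z hz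
  have h1 := h x hx y hy
  have h2 := h x hx z hz
  have h3 := h y hy z hz
  unfold par at *
  grind

variable (hs : ∀ i j, ε i j = ε j i) (hd : ∀ i, ε i i = 0)
include hs hd

theorem ev_three {a b c : Fin 10} (h : par ε a b c = 0) : Ev ε {a, b, c} := by
  apply ev_base (a := a)
  intro x hx y hy
  simp only [mem_insert, mem_singleton] at hx hy
  unfold par at *
  rcases hx with rfl | rfl | rfl <;> rcases hy with rfl | rfl | rfl <;> grind

theorem ev_four {a b c d : Fin 10} (h1 : par ε a b c = 0) (h2 : par ε a b d = 0)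
    (h3 : par ε a c d = 0) : Ev ε {a, b, c, d} := by
  apply ev_base (a := a)
  intro x hx y hy
  simp only [mem_insert, mem_singleton] at hx hy
  unfold par at *
  rcases hx with rfl | rfl | rfl | rfl <;> rcases hy with rfl | rfl | rfl | rfl <;> grind

theorem ev_small {S : Finset (Fin 10)} (h : S.card ≤ 2) : Ev ε S := by
  intro a ha b hb c hc
  have : a = b ∨ a = c ∨ b = c := by
    by_contra hn
    push Not at hn
    have : ({a, b, c} : Finset (Fin 10)) ⊆ S := by
      intro x hx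
      simp only [mem_insert, mem_singleton] at hx
      rcases hx with rfl | rfl | rfl <;> assumption
    have h2 := card_le_card this
    rw [card_eq_three.2 ⟨a, b, c, hn.1, hn.2.1, hn.2.2, rfl⟩] at h2
    omega
  unfold par
  rcases this with rfl | rfl | rfl <;> grind

end twograph

end Vale.Agent.P052
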