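import Vale.Agent.P052.Finite

namespace Vale.Agent.P052

open Finset

/-- The regular two-graph on six points. -/
def e0 (i j : Fin 6) : ZMod 2 :=
  if (3 ≤ i.val ∧ 3 ≤ j.val ∧ i ≠ j) ∨ i.val = j.val + 3 ∨ j.val = i.val + 3 then 1 else 0

set_option synthInstance.maxSize 2000 in
theorem e0_a : ∀ x y z : Fin 6, (x ≠ y ∧ x ≠ z ∧ y ≠ z ∧ e0 x y + e0 x z + e0 y z = 1) →
    ∀ u : Fin 6, (u ≠ x ∧ u ≠ y ∧ u ≠ z) → ∀ v : Fin 6, (v ≠ x ∧ v ≠ y ∧ v ≠ z) →
    ∀ w : Fin 6, (w ≠ x ∧ w ≠ y ∧ w ≠ z) → e0 u v + e0 u w + e0 v w = 0 := by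
  decide +kernel

theorem e0_b : ∀ x y z w : Fin 6, (x ≠ y ∧ x ≠ z ∧ x ≠ w ∧ y ≠ z ∧ y ≠ w ∧ z ≠ w) →
    ¬ (e0 x y + e0 x z + e0 y z = e0 x y + e0 x w + e0 y w ∧
      e0 x y + e0 x z + e0 y z = e0 x z + e0 x w + e0 z w) := by
  decide +kernel

variable {ε : Fin 10 → Fin 10 → ZMod 2} (hs : ∀ i j, ε i j = ε j i) (hd : ∀ i, ε i i = 0)
include hs hd

theorem not_ev_three {a b c : Fin 10} (h : ¬ Ev ε {a, b, c}) : par ε a b c = 1 :=
  zmod2_ne_zero fun h0 => h (ev_three hs hd h0)

theorem six_struct {B : Finset (Fin 10)} (h : Good ε 2 B) (hB : B.card = 6) :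
    ∃ (φ : Fin 6 → Fin 10) (s : Fin 6 → ZMod 2), (∀ x ∈ B, ∃ i, φ i = x) ∧
      ∀ i j, ε (φ i) (φ j) = s i + s j + e0 i j := by
  obtain ⟨S, hSB, hS3, hSe, hpm⟩ := good_pm h
  obtain ⟨a, b, c, hab, hac, hbc, rfl⟩ := card_eq_three.1 hS3
  have no4 : ∀ D ⊆ B, D.card = 4 → ¬ Ev ε D := by
    intro D hD hD4 hDe
    apply good_two h hDe
    apply ev_small hs hd
    rw [card_sdiff_of_subset hD]; omega
  have ha : a ∈ B := hSB (by simp)
  have hb : b ∈ B := hSB (by simp)
  have hc : c ∈ B := hSB (by simp)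
  obtain ⟨p, hpB, hpS, hp⟩ := hpm a (by simp)
  obtain ⟨q, hqB, hqS, hq⟩ := hpm b (by simp)
  obtain ⟨r, hrB, hrS, hr⟩ := hpm c (by simp)
  simp only [mem_insert, mem_singleton, not_or] at hpS hqS hrS
  have habc : par ε a b c = 0 := hSe a (by simp) b (by simp) c (by simp)
  have hpbc : par ε p b c = 0 := hp p (by simp) b (by simp [hab.symm]) c (by simp [hac.symm])
  have hqac : par ε q a c = 0 := hq q (by simp) a (by simp [hab]) c (by simp [hbc.symm])
  have hrab : par ε r a b = 0 := hr r (by simp) a (by simp [hac]) b (by simp [hbc])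
  have four : ∀ x ∈ B, x ≠ a → x ≠ b → x ≠ c → ¬ (par ε a b x = 0 ∧ par ε a c x = 0) := by
    intro x hx h1 h2 h3 h4
    refine no4 {a, b, c, x} ?_ ?_ (ev_four hs hd habc h4.1 h4.2)
    · intro y hy
      simp only [mem_insert, mem_singleton] at hy
      rcases hy with rfl | rfl | rfl | rfl <;> assumption
    · rw [card_insert_of_notMem (by simp [hab, hac, h1.symm]),
        card_insert_of_notMem (by simp [hbc, h2.symm]), card_insert_of_notMem (by simp [h3.symm])]
      rfl
  have hpab : par ε a b p = 1 := by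
    apply zmod2_ne_zero
    intro h0
    apply four p hpB hpS.1 hpS.2.1 hpS.2.2
    unfold par at *
    exact ⟨h0, by grind⟩
  have hqab : par ε a b q = 1 := by
    apply zmod2_ne_zero
    intro h0
    apply four q hqB hqS.1 hqS.2.1 hqS.2.2
    unfold par at *
    exact ⟨h0, by grind⟩
  have hrac : par ε a c r = 1 := by
    apply zmod2_ne_zero
    intro h0
    apply four r hrB hrS.1 hrS.2.1 hrS.2.2
    unfold par at *
    exact ⟨by grind, h0⟩
  have hpq : p ≠ q := by
    rintro rfl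
    unfold par at *
    grind
  have hpr : p ≠ r := by
    rintro rfl
    unfold par at *
    grind
  have hqr : q ≠ r := by
    rintro rfl
    unfold par at *
    grind
  have hBeq : B = {a, b, c, p, q, r} := by
    symm
    apply eq_of_subset_of_card_le
    · intro y hy
      simp only [mem_insert, mem_singleton] at hy
      rcases hy with rfl | rfl | rfl | rfl | rfl | rfl <;> assumption
    · rw [card_insert_of_notMem (by simp [hab, hac, Ne.symm hpS.1, Ne.symm hqS.1, Ne.symm hrS.1]),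
        card_insert_of_notMem (by simp [hbc, Ne.symm hpS.2.1, Ne.symm hqS.2.1, Ne.symm hrS.2.1]),
        card_insert_of_notMem (by simp [Ne.symm hpS.2.2, Ne.symm hqS.2.2, Ne.symm hrS.2.2]),
        card_insert_of_notMem (by simp [hpq, hpr]), card_insert_of_notMem (by simp [hqr]), hB]
      rfl
  have odd : ∀ x y z u v w : Fin 10, par ε x y z = 0 → B \ {x, y, z} ⊆ {u, v, w} →
      par ε u v w = 1 := by
    intro x y z u v w h0 hsub
    apply not_ev_three hs hd
    intro he
    exact good_two h (ev_three hs hd h0) (he.mono hsub)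
  have haqr : par ε a q r = 1 := by
    apply odd p b c a q r hpbc
    rw [hBeq]; intro y; simp only [mem_sdiff, mem_insert, mem_singleton]; tauto
  have hbpr : par ε b p r = 1 := by
    apply odd q a c b p r hqac
    rw [hBeq]; intro y; simp only [mem_sdiff, mem_insert, mem_singleton]; tauto
  have hcpq : par ε c p q = 1 := by
    apply odd r a b c p q hrab
    rw [hBeq]; intro y; simp only [mem_sdiff, mem_insert, mem_singleton]; tauto
  refine ⟨![a, b, c, p, q, r], ![0, ε a b, ε a c, ε a p + 1, ε a q, ε a r], ?_, ?_⟩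
  · intro x hx
    rw [hBeq] at hx
    simp only [mem_insert, mem_singleton] at hx
    rcases hx with rfl | rfl | rfl | rfl | rfl | rfl
    exacts [⟨0, rfl⟩, ⟨1, rfl⟩, ⟨2, rfl⟩, ⟨3, rfl⟩, ⟨4, rfl⟩, ⟨5, rfl⟩]
  · unfold par at *
    have h2 : (1 : ZMod 2) + 1 = 0 := by decide
    clear no4 four odd hpm hSe hp hq hr hSB hBeq
    intro i j
    fin_cases i <;> fin_cases j <;> simp [e0] <;> grind

theorem six_a {B : Finset (Fin 10)} (h : Good ε 2 B) (hB : B.card = 6) {x y z : Fin 10}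
    (hx : x ∈ B) (hy : y ∈ B) (hz : z ∈ B) (hxy : x ≠ y) (hxz : x ≠ z) (hyz : y ≠ z) :
    par ε x y z = 0 ↔ ¬ Ev ε (B \ {x, y, z}) := by
  refine ⟨fun h0 => good_two h (ev_three hs hd h0), fun hn => ?_⟩
  by_contra h1
  have h1' := zmod2_ne_zero h1
  apply hn
  obtain ⟨φ, s, hφ, he⟩ := six_struct hs hd h hB
  obtain ⟨x, rfl⟩ := hφ x hx
  obtain ⟨y, rfl⟩ := hφ y hy
  obtain ⟨z, rfl⟩ := hφ z hz
  intro u hu v hv w hw
  simp only [mem_sdiff, mem_insert, mem_singleton, not_or] at hu hv hw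
  obtain ⟨u, rfl⟩ := hφ u hu.1
  obtain ⟨v, rfl⟩ := hφ v hv.1
  obtain ⟨w, rfl⟩ := hφ w hw.1
  have ne : ∀ {i j}, φ i ≠ φ j → i ≠ j := fun h h' => h (congrArg φ h')
  have := e0_a x y z ⟨ne hxy, ne hxz, ne hyz, by unfold par at h1'; rw [he, he, he] at h1'; grind⟩
    u ⟨ne hu.2.1, ne hu.2.2.1, ne hu.2.2.2⟩ v ⟨ne hv.2.1, ne hv.2.2.1, ne hv.2.2.2⟩
    w ⟨ne hw.2.1, ne hw.2.2.1, ne hw.2.2.2⟩
  unfold par
  rw [he, he, he]
  grind

theorem six_b {B : Finset (Fin 10)} (h : Good ε 2 B) (hB : B.card = 6) {x y z w : Fin 10}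
    (hx : x ∈ B) (hy : y ∈ B) (hz : z ∈ B) (hw : w ∈ B) (hxy : x ≠ y) (hxz : x ≠ z) (hxw : x ≠ w)
    (hyz : y ≠ z) (hyw : y ≠ w) (hzw : z ≠ w) :
    ¬ (par ε x y z = par ε x y w ∧ par ε x y z = par ε x z w) := by
  obtain ⟨φ, s, hφ, he⟩ := six_struct hs hd h hB
  obtain ⟨x, rfl⟩ := hφ x hx
  obtain ⟨y, rfl⟩ := hφ y hy
  obtain ⟨z, rfl⟩ := hφ z hz
  obtain ⟨w, rfl⟩ := hφ w hw
  have ne : ∀ {i j}, φ i ≠ φ j → i ≠ j := fun h h' => h (congrArg φ h')
  intro hh
  apply e0_b x y z w ⟨ne hxy, ne hxz, ne hxw, ne hyz, ne hyw, ne hzw⟩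
  unfold par at hh
  simp only [he] at hh
  obtain ⟨h1, h2⟩ := hh
  constructor <;> grind

theorem not_good_three : ¬ Good ε 3 univ := by
  intro h
  obtain ⟨S, -, hS4, hSe, hpm⟩ := good_pm h
  have no5 : ∀ D : Finset (Fin 10), D.card = 5 → ¬ Ev ε D := by
    intro D hD hDe
    have h2 := good_cut h hDe
    obtain ⟨T, hT, hT3, hTe, -⟩ := good_pm h2
    apply good_two h2 hTe
    apply ev_small hs hd
    rw [card_sdiff_of_subset hT, card_sdiff_of_subset (subset_univ _), hD, hT3]
    simp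
  have hB : Good ε 2 (univ \ S) := good_cut h hSe
  have hBc : (univ \ S).card = 6 := by
    rw [card_sdiff_of_subset (subset_univ _), hS4]; simp
  choose! x hxu hxS hxe using hpm
  have hxB : ∀ i ∈ S, x i ∈ univ \ S := fun i hi => mem_sdiff.2 ⟨mem_univ _, hxS i hi⟩
  have even1 : ∀ i ∈ S, ∀ j ∈ S, ∀ l ∈ S, j ≠ i → l ≠ i → par ε (x i) j l = 0 := by
    intro i hi j hj l hl hji hli
    exact hxe i hi _ (mem_insert_self _ _) j (by simp [hji, hj]) l (by simp [hli, hl])
  have odd1 : ∀ i ∈ S, ∀ j ∈ S, j ≠ i → par ε (x i) i j = 1 := by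
    intro i hi j hj hji
    apply zmod2_ne_zero
    intro h0
    apply no5 (insert (x i) S) (by rw [card_insert_of_notMem (hxS i hi), hS4])
    apply ev_base (a := j)
    have key : ∀ b ∈ S, par ε j (x i) b = 0 := by
      intro b hb
      by_cases hbi : b = i
      · subst hbi; unfold par at *; grind
      · have := even1 i hi j hj b hb hji hbi
        unfold par at *; grind
    intro b hb c hc
    rcases mem_insert.1 hb with rfl | hb <;> rcases mem_insert.1 hc with rfl | hc
    · unfold par; grind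
    · exact key c hc
    · have := key b hb
      unfold par at *; grind
    · exact hSe j hj b hb c hc
  have third : ∀ i j : Fin 10, ∃ l ∈ S, l ≠ i ∧ l ≠ j := by
    intro i j
    by_contra hn
    push Not at hn
    have : S ⊆ {i, j} := by
      intro l hl
      by_cases hli : l = i
      · simp [hli]
      · simp [hn l hl hli]
    have h1 := card_le_card this
    have h2 : ({i, j} : Finset (Fin 10)).card ≤ 2 := card_le_two
    omega
  have xinj : ∀ i ∈ S, ∀ j ∈ S, i ≠ j → x i ≠ x j := by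
    intro i hi j hj hij hx
    obtain ⟨l, hl, hli, hlj⟩ := third i j
    have h1 := odd1 i hi l hl hli
    have h2 := even1 j hj i hi l hl hij hlj
    rw [← hx, h1] at h2
    exact absurd h2 (by decide)
  have twin : ∀ i ∈ S, ∀ a ∈ univ \ S, ∀ b ∈ univ \ S, a ≠ x i → b ≠ x i → a ≠ b →
      par ε (x i) a b = par ε i a b := by
    intro i hi a ha b hb hai hbi hab
    have haS : a ∉ S := (mem_sdiff.1 ha).2
    have hbS : b ∉ S := (mem_sdiff.1 hb).2
    have hB' : Good ε 2 (univ \ insert (x i) (S.erase i)) := good_cut h (hxe i hi)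
    have hB'c : (univ \ insert (x i) (S.erase i)).card = 6 := by
      rw [card_sdiff_of_subset (subset_univ _),
        card_insert_of_notMem (fun h' => hxS i hi (mem_of_mem_erase h')), card_erase_of_mem hi, hS4]
      simp
    have hix : i ≠ x i := fun h' => hxS i hi (h' ▸ hi)
    have h1 := six_a hs hd hB hBc (hxB i hi) ha hb hai.symm hbi.symm hab
    have h2 := six_a hs hd hB' hB'c (x := i) (y := a) (z := b) (by simp [hix]) (by simp [hai, haS])
      (by simp [hbi, hbS]) (fun h' => haS (h' ▸ hi)) (fun h' => hbS (h' ▸ hi)) hab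
    have e : (univ \ insert (x i) (S.erase i)) \ {i, a, b} = (univ \ S) \ {x i, a, b} := by
      ext y
      simp only [mem_sdiff, mem_univ, true_and, mem_insert, mem_erase, mem_singleton, not_or]
      by_cases hy : y = i
      · subst hy; simp [hi]
      · simp only [hy, ne_eq, not_false_eq_true, true_and]; tauto
    rw [e, ← h1] at h2
    generalize par ε (x i) a b = s at *
    generalize par ε i a b = t at *
    clear * - h2
    revert s t; decide
  obtain ⟨i, j, l, m, hij, hil, him, hjl, hjm, hlm, rfl⟩ := card_eq_four.1 hS4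
  have hi : i ∈ ({i, j, l, m} : Finset (Fin 10)) := by simp
  have hj : j ∈ ({i, j, l, m} : Finset (Fin 10)) := by simp
  have hl : l ∈ ({i, j, l, m} : Finset (Fin 10)) := by simp
  have hm : m ∈ ({i, j, l, m} : Finset (Fin 10)) := by simp
  have nij := xinj i hi j hj hij
  have nil := xinj i hi l hl hil
  have nim := xinj i hi m hm him
  have njl := xinj j hj l hl hjl
  have njm := xinj j hj m hm hjm
  have nlm := xinj l hl m hm hlm
  apply six_b hs hd hB hBc (hxB i hi) (hxB j hj) (hxB l hl) (hxB m hm) nij nil nim njl njm nlm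
  have t1 := twin i hi _ (hxB j hj) _ (hxB l hl) nij.symm nil.symm njl
  have t2 := twin i hi _ (hxB j hj) _ (hxB m hm) nij.symm nim.symm njm
  have t3 := twin j hj _ (hxB i hi) _ (hxB l hl) nij njl.symm nil
  have t4 := twin j hj _ (hxB i hi) _ (hxB m hm) nij njm.symm nim
  have t5 := twin l hl _ (hxB i hi) _ (hxB m hm) nil nlm.symm nim
  have a1 := even1 i hi j hj l hl hij.symm hil.symm
  have a2 := even1 i hi j hj m hm hij.symm him.symm
  have a3 := even1 j hj i hi l hl hij hjl.symm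
  have a4 := even1 j hj i hi m hm hij hjm.symm
  have a5 := even1 l hl i hi j hj hil hjl
  have a6 := even1 l hl i hi m hm hil hlm.symm
  have a7 := even1 m hm i hi j hj him hjm
  have a8 := even1 m hm i hi l hl him hlm
  have b1 := hSe i hi j hj l hl
  have b2 := hSe i hi j hj m hm
  have b3 := hSe i hi l hl m hm
  have c1 := odd1 i hi j hj hij.symm
  have c2 := odd1 j hj i hi hij
  have c3 := odd1 l hl i hi hil
  have c4 := odd1 m hm i hi him
  unfold par at *
  clear * - hs t1 t2 t3 t4 t5 a1 a2 a3 a4 a5 a6 a7 a8 b1 b2 b3 c1 c2 c3 c4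
  constructor <;> grind

end Vale.Agent.P052
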