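import Vale.Agent.P052.Signs
import Vale.Agent.P052.Ten

namespace Vale.Agent.P052

open Finset

theorem no_colouring {c : E 4 → Fin 10} {ε : ℝ} (hε : 0 < ε)
    (hc : ∀ x y, ‖x‖ = 1 → ‖y‖ = 1 → c x = c y → ε ≤ |inner ℝ x y|)
    (heven : ∀ x, c (-x) = c x) : False := by
  classical
  obtain ⟨e, ha, hb, hcc⟩ := exists_signs hε hc
  let σ : Fin 10 → Fin 10 → ZMod 2 := fun i j =>
    if ∃ y, Near c ε i y ∧ Near c ε j y ∧ e i y ≠ e j y then 1 else 0
  have hs : ∀ i j, σ i j = σ j i := by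
    intro i j
    simp only [σ]
    congr 1
    apply propext
    constructor <;> rintro ⟨y, h1, h2, h3⟩ <;> exact ⟨y, h2, h1, h3.symm⟩
  have hd : ∀ i, σ i i = 0 := by intro i; simp [σ]
  have key : ∀ i j y, Near c ε i y → Near c ε j y → e i y + e j y = σ i j := by
    intro i j y hi hj
    simp only [σ]
    split_ifs with h
    · obtain ⟨y', h1, h2, h3⟩ := h
      rw [hcc i j y y' hi hj h1 h2, zmod2_flip h3]
      grind
    · have : e i y = e j y := by
        by_contra hne; exact h ⟨y, hi, hj, hne⟩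
      rw [this, two_self]
  have near : ∀ x x' : E 4, ‖x‖ = 1 → ‖x'‖ = 1 → ‖x - x'‖ ≤ ε / 2 →
      Near c ε (c x') x ∧ e (c x') x = e (c x') x' := by
    intro x x' hx hx' hd
    have h : ∀ w, ‖w‖ = 1 → c w = c x' →
        ε ≤ |inner ℝ w x'| ∧ |inner ℝ w x - inner ℝ w x'| ≤ ε / 2 := by
      intro w hw hwc
      refine ⟨hc w x' hw hx' hwc, ?_⟩
      rw [← inner_sub_right]
      have := abs_real_inner_le_norm w (x - x')
      rw [hw, one_mul] at this
      linarith
    refine ⟨⟨hx, fun w hw hwc => ?_⟩, hb _ _ _ fun w hw hwc => ?_⟩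
    · obtain ⟨h1, h2⟩ := h w hw hwc
      have := abs_sub_abs_le_abs_sub (inner ℝ w x') (inner ℝ w x)
      rw [abs_sub_comm] at this
      linarith
    · obtain ⟨h1, h2⟩ := h w hw hwc
      unfold ng
      rw [abs_le] at h2
      have : inner ℝ w x < 0 ↔ inner ℝ w x' < 0 := by
        rcases le_abs.1 h1 with h3 | h3 <;> constructor <;> intro h4 <;> linarith [h2.1, h2.2]
      simp only [this]
  obtain ⟨T⟩ := exists_tower 3 (ε / 2) (half_pos hε)
  let lab : E 4 → V := fun x => (c x, e (c x) x)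
  have hcl : ∀ k l, Small 4 (ε / 2) k l → ∀ x ∈ l, ∀ x' ∈ l,
      (lab x).2 + (lab x').2 = σ (lab x).1 (lab x').1 := by
    intro k l hl x hx x' hx'
    obtain ⟨h1, h2⟩ := near x x' (hl.2.1 x hx) (hl.2.1 x' hx') (hl.2.2 x hx x' hx')
    obtain ⟨h3, -⟩ := near x x (hl.2.1 x hx) (hl.2.1 x hx) (hl.2.2 x hx x hx)
    simp only [lab]
    rw [← h2]
    exact key _ _ x h3 h1
  have hess := T.ess lab (fun k l hl x hx => by
    obtain ⟨h3, -⟩ := near x x (hl.2.1 x hx) (hl.2.1 x hx) (hl.2.2 x hx x hx)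
    simp only [lab, flip, heven, ha _ x h3]) (fun k l _ hl => ⟨hl.1, fun x hx x' hx' h => by
      have h1 := hcl k l hl x hx x' hx'
      rw [h] at h1
      simp only [flip, hd] at h1
      grind⟩) 3 le_rfl
  apply not_good_three hs hd
  refine ⟨_, hess, fun τ hτ => ⟨?_, fun v _ => mem_univ _⟩⟩
  have hch : ∀ τ, T.ch lab 3 τ ≠ 0 → Clique σ τ := by
    intro τ hτ u hu v hv
    obtain ⟨l, hl, -, h2⟩ := T.ch_supp lab le_rfl hτ
    obtain ⟨x, hx, rfl⟩ := (h2 u).1 hu
    obtain ⟨x', hx', rfl⟩ := (h2 v).1 hv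
    exact hcl 3 l hl x hx x' hx'
  by_cases h0 : T.ch lab 3 τ = 0
  · have h1 : T.ch lab 3 (τ.image flip) ≠ 0 := by
      intro h1; apply hτ; simp [act, h0, h1]
    intro u hu v hv
    have := hch _ h1 _ (mem_image_of_mem _ hu) _ (mem_image_of_mem _ hv)
    simp only [flip] at this
    grind
  · exact hch τ h0

theorem exists_proj {F : Type} [NormedAddCommGroup F] [InnerProductSpace ℝ F] (d : ℕ)
    (hF : Module.finrank ℝ F = d + 1) (u : F) (hu : u ≠ 0) :
    ∃ Φ : F → EuclideanSpace ℝ (Fin d), ∀ a b, inner ℝ u a = inner ℝ u b →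
      dist (Φ a) (Φ b) = dist a b := by
  have : Fact (Module.finrank ℝ F = d + 1) := ⟨hF⟩
  have : FiniteDimensional ℝ F := Module.finite_of_finrank_eq_succ hF
  let b := OrthonormalBasis.fromOrthogonalSpanSingleton (𝕜 := ℝ) d hu
  refine ⟨fun a => b.repr ((ℝ ∙ u)ᗮ.orthogonalProjectionOnto a), fun a a' h => ?_⟩
  rw [dist_eq_norm, dist_eq_norm, ← map_sub, ← map_sub, LinearIsometryEquiv.norm_map]
  have hm : a - a' ∈ (ℝ ∙ u)ᗮ := by
    rw [Submodule.mem_orthogonal_singleton_iff_inner_right, inner_sub_right, h, sub_self]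
  have := Submodule.orthogonalProjectionOnto_mem_subspace_eq_self (K := (ℝ ∙ u)ᗮ) ⟨a - a', hm⟩
  rw [show (a - a' : F) = ((⟨a - a', hm⟩ : (ℝ ∙ u)ᗮ) : F) from rfl, this]
  rfl

/-- Veronese coordinates. -/
noncomputable def ver (k : ℕ) (x : E 4) : EuclideanSpace ℝ (Fin 10 ⊕ Fin k) :=
  WithLp.toLp 2 (Sum.elim ![x 0 * x 0, x 1 * x 1, x 2 * x 2, x 3 * x 3, √2 * (x 0 * x 1),
    √2 * (x 0 * x 2), √2 * (x 0 * x 3), √2 * (x 1 * x 2), √2 * (x 1 * x 3), √2 * (x 2 * x 3)]
    fun _ => 0)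

noncomputable def uu (k : ℕ) : EuclideanSpace ℝ (Fin 10 ⊕ Fin k) :=
  WithLp.toLp 2 (Sum.elim ![1, 1, 1, 1, 0, 0, 0, 0, 0, 0] fun _ => 1)

theorem ver_neg (k : ℕ) (x : E 4) : ver k (-x) = ver k x := by
  simp [ver]

theorem inner_ver (k : ℕ) (x y : E 4) : inner ℝ (ver k x) (ver k y) = inner ℝ x y ^ 2 := by
  rw [inner_eq, PiLp.inner_apply]
  have h2 : √2 * √2 = 2 := Real.mul_self_sqrt (by norm_num)
  simp [ver, Fintype.sum_sum_type, Fin.sum_univ_succ]
  linear_combination (x 0 * x 1 * y 0 * y 1 + x 0 * x 2 * y 0 * y 2 + x 0 * x 3 * y 0 * y 3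
    + x 1 * x 2 * y 1 * y 2 + x 1 * x 3 * y 1 * y 3 + x 2 * x 3 * y 2 * y 3) * h2

theorem inner_uu_ver (k : ℕ) (x : E 4) : inner ℝ (uu k) (ver k x) = inner ℝ x x := by
  rw [inner_eq, PiLp.inner_apply]
  simp [ver, uu, Fintype.sum_sum_type, Fin.sum_univ_succ]

theorem borsuk (d : ℕ) (hd : 9 ≤ d) : ∃ Y : Set (EuclideanSpace ℝ (Fin d)),
    Bornology.IsBounded Y ∧ 0 < Metric.diam Y ∧
      ¬ ∃ P : Fin (d + 1) → Set (EuclideanSpace ℝ (Fin d)),
        (⋃ i, P i) = Y ∧ ∀ i, Metric.diam (P i) < Metric.diam Y := by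
  classical
  obtain ⟨k, rfl⟩ : ∃ k, d = 9 + k := ⟨d - 9, by omega⟩
  obtain ⟨Φ, hΦ⟩ := exists_proj (F := EuclideanSpace ℝ (Fin 10 ⊕ Fin k)) (9 + k)
    (by simp; omega) (uu k) (by
      intro h
      have := congrArg (fun v : EuclideanSpace ℝ (Fin 10 ⊕ Fin k) => v (Sum.inl 0)) h
      simp [uu] at this)
  let pt : {x : E 4 // ‖x‖ = 1} ⊕ Fin k → EuclideanSpace ℝ (Fin 10 ⊕ Fin k) :=
    Sum.elim (fun x => ver k x.1) fun j => EuclideanSpace.single (Sum.inr j) 1
  have hu : ∀ a, inner ℝ (uu k) (pt a) = 1 := by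
    rintro (⟨x, hx⟩ | j)
    · simp [pt, inner_uu_ver, hx]
    · simp [pt, uu, EuclideanSpace.inner_single_right]
  have hn : ∀ a, ‖pt a‖ ^ 2 = 1 := by
    rintro (⟨x, hx⟩ | j)
    · rw [← real_inner_self_eq_norm_sq]
      simp only [pt, Sum.elim_inl, inner_ver]
      simp [hx]
    · simp [pt]
  have hdist : ∀ a b, dist (Φ (pt a)) (Φ (pt b)) ^ 2 = 2 - 2 * inner ℝ (pt a) (pt b) := by
    intro a b
    rw [hΦ _ _ (by rw [hu, hu]), dist_eq_norm, norm_sub_sq_real, hn, hn]; ring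
  have hlr : ∀ x j, inner ℝ (pt (Sum.inl x)) (pt (Sum.inr j)) = 0 := by
    intro x j
    simp [pt, ver, EuclideanSpace.inner_single_right]
  have hrr : ∀ j l, j ≠ l → inner ℝ (pt (Sum.inr j)) (pt (Sum.inr l)) = 0 := by
    intro j l h
    simp [pt, EuclideanSpace.inner_single_right, h.symm]
  have hpos : ∀ a b, 0 ≤ inner ℝ (pt a) (pt b) := by
    rintro (x | j) (y | l)
    · simp only [pt, Sum.elim_inl, inner_ver]; positivity
    · rw [hlr]
    · rw [real_inner_comm, hlr]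
    · by_cases h : j = l
      · subst h; exact real_inner_self_nonneg
      · rw [hrr j l h]
  have hle : ∀ a b, dist (Φ (pt a)) (Φ (pt b)) ≤ √2 := by
    intro a b
    apply Real.le_sqrt_of_sq_le
    rw [hdist]; linarith [hpos a b]
  let Y : Set (EuclideanSpace ℝ (Fin (9 + k))) := Set.range fun a => Φ (pt a)
  have hYb : Bornology.IsBounded Y := by
    rw [Metric.isBounded_iff]
    refine ⟨√2, ?_⟩
    rintro _ ⟨a, rfl⟩ _ ⟨b, rfl⟩
    exact hle a b
  have hYd : Metric.diam Y ≤ √2 := by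
    apply Metric.diam_le_of_forall_dist_le (by positivity)
    rintro _ ⟨a, rfl⟩ _ ⟨b, rfl⟩
    exact hle a b
  refine ⟨Y, hYb, ?_, ?_⟩
  · let a : {x : E 4 // ‖x‖ = 1} := ⟨EuclideanSpace.single 0 1, by simp⟩
    let b : {x : E 4 // ‖x‖ = 1} := ⟨EuclideanSpace.single 1 1, by simp⟩
    have h1 := hdist (Sum.inl a) (Sum.inl b)
    have h2 : inner ℝ (pt (Sum.inl a)) (pt (Sum.inl b)) = 0 := by
      simp only [pt, Sum.elim_inl, inner_ver, a, b]
      simp [EuclideanSpace.inner_single_right]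
    have h3 := Metric.dist_le_diam_of_mem hYb (Set.mem_range_self (Sum.inl a))
      (Set.mem_range_self (Sum.inl b))
    refine lt_of_lt_of_le ?_ h3
    rw [h2] at h1
    rcases (dist_nonneg (x := Φ (pt (Sum.inl a))) (y := Φ (pt (Sum.inl b)))).eq_or_lt with h | h
    · rw [← h] at h1; norm_num at h1
    · exact h
  · rintro ⟨P, hP, hPd⟩
    obtain ⟨i0, hi0⟩ := Finite.exists_max fun i => Metric.diam (P i)
    set D := Metric.diam (P i0) with hD
    have hD0 : 0 ≤ D := Metric.diam_nonneg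
    have hD2 : D ^ 2 < 2 := by
      have h1 : D < √2 := (hPd i0).trans_le hYd
      have h2 : √2 * √2 = 2 := Real.mul_self_sqrt (by norm_num)
      nlinarith
    let col : EuclideanSpace ℝ (Fin (9 + k)) → Fin (9 + k + 1) := fun z =>
      if h : ∃ i, z ∈ P i then h.choose else 0
    have hcol : ∀ a, Φ (pt a) ∈ P (col (Φ (pt a))) := by
      intro a
      have h : ∃ i, Φ (pt a) ∈ P i := by
        rw [← Set.mem_iUnion, hP]; exact Set.mem_range_self a
      simp only [col, h, dif_pos]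
      exact h.choose_spec
    have hsame : ∀ a b, col (Φ (pt a)) = col (Φ (pt b)) → 1 - D ^ 2 / 2 ≤ inner ℝ (pt a) (pt b) := by
      intro a b h
      have hb : Bornology.IsBounded (P (col (Φ (pt a)))) :=
        hYb.subset (hP ▸ Set.subset_iUnion P _)
      have h1 := (Metric.dist_le_diam_of_mem hb (hcol a) (h ▸ hcol b)).trans (hi0 _)
      have h2 := pow_le_pow_left₀ dist_nonneg h1 2
      rw [hdist] at h2
      linarith
    let R : Finset (Fin (9 + k + 1)) := (univ.image fun j : Fin k => col (Φ (pt (Sum.inr j))))ᶜ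
    have hR : R.card = 10 := by
      rw [card_compl, card_image_of_injective]
      · simp; omega
      · intro j l h
        by_contra hne
        have := hsame _ _ h
        rw [hrr j l hne] at this
        linarith
    have hmem : ∀ x : E 4, ‖x‖ = 1 → col (Φ (ver k x)) ∈ R := by
      intro x hx
      simp only [R, mem_compl, mem_image, mem_univ, true_and, not_exists]
      intro j h
      have := hsame (Sum.inl ⟨x, hx⟩) (Sum.inr j) h.symm
      rw [hlr] at this
      linarith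
    let c : E 4 → Fin 10 := fun x =>
      if h : col (Φ (ver k x)) ∈ R then R.equivFinOfCardEq hR ⟨_, h⟩ else 0
    refine no_colouring (c := c) (ε := √(1 - D ^ 2 / 2)) (Real.sqrt_pos.2 (by linarith)) ?_ ?_
    · intro x y hx hy h
      simp only [c, hmem x hx, hmem y hy, dif_pos, EmbeddingLike.apply_eq_iff_eq,
        Subtype.mk.injEq] at h
      have := hsame (Sum.inl ⟨x, hx⟩) (Sum.inl ⟨y, hy⟩) h
      simp only [pt, Sum.elim_inl, inner_ver] at this
      rw [← Real.sqrt_sq_eq_abs]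
      exact Real.sqrt_le_sqrt this
    · intro x
      simp only [c, ver_neg]

end Vale.Agent.P052
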