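import Vale.Agent.P052.Chains

namespace Vale.Agent.P052

open Finset

/-- Indicator of the lists that enumerate a finite set without repetition. -/
def ind {γ : Type} [DecidableEq γ] : Finset γ → List γ → ZMod 2
  | σ, [] => if σ = ∅ then 1 else 0
  | σ, v :: l => if v ∈ σ then ind (σ.erase v) l else 0

theorem ind_ne_zero {γ : Type} [DecidableEq γ] (l : List γ) : ∀ σ : Finset γ, ind σ l ≠ 0 →
    l.length = σ.card ∧ ∀ v, v ∈ σ ↔ v ∈ l := by
  induction l with
  | nil =>
    intro σ h
    by_cases hσ : σ = ∅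
    · simp [hσ]
    · simp [ind, hσ] at h
  | cons v l ih =>
    intro σ h
    by_cases hv : v ∈ σ
    · simp only [ind, hv, if_true] at h
      obtain ⟨h1, h2⟩ := ih _ h
      refine ⟨?_, fun w => ?_⟩
      · rw [List.length_cons, h1, card_erase_add_one hv]
      · rw [List.mem_cons, ← h2, mem_erase]
        by_cases hw : w = v
        · simp [hw, hv]
        · simp [hw]
    · simp [ind, hv] at h

theorem cob_ind {γ : Type} [DecidableEq γ] [Fintype γ] (l : List γ) : ∀ τ : Finset γ,
    cob (ind τ) l = ∑ v ∈ τᶜ, ind (insert v τ) l := by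
  induction l with
  | nil => intro τ; simp [cob, ind]
  | cons u l ih =>
    intro τ
    by_cases hu : u ∈ τ
    · have e : (fun l' => ind τ (u :: l')) = ind (τ.erase u) := by
        funext l'; simp [ind, hu]
      have hc : (τ.erase u)ᶜ = insert u τᶜ := by
        ext w; simp
      rw [cob, e, ih, hc, sum_insert (by simpa using hu), insert_erase hu, ← add_assoc, two_self,
        zero_add]
      refine sum_congr rfl fun v hv => ?_
      have hvu : v ≠ u := by rintro rfl; simp [hu] at hv
      simp only [ind, mem_insert, hu, or_true, if_true]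
      rw [erase_insert_of_ne hvu]
    · have e : (fun l' => ind τ (u :: l')) = fun _ => 0 := by
        funext l'; simp [ind, hu]
      rw [cob, e, cob_zero, add_zero, sum_eq_single u]
      · simp [ind, hu]
      · intro v _ hvu
        have : u ∉ insert v τ := by simp [hu, Ne.symm hvu]
        simp only [ind, this, if_false]
      · intro h; exact absurd (by simpa using hu) h

theorem ind_map {γ γ' : Type} [DecidableEq γ] [DecidableEq γ'] (a : γ → γ')
    (ha : Function.Injective a) (l : List γ) : ∀ σ : Finset γ,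
    ind (σ.image a) (l.map a) = ind σ l := by
  induction l with
  | nil => intro σ; simp [ind]
  | cons v l ih =>
    intro σ
    simp only [List.map_cons, ind, ha.mem_finset_image]
    rw [← image_erase ha, ih]

abbrev V := Fin 10 × ZMod 2

def flip (v : V) : V := (v.1, v.2 + 1)

theorem flip_flip (v : V) : flip (flip v) = v := by
  obtain ⟨i, s⟩ := v
  simp only [flip, Prod.mk.injEq, true_and]
  rw [add_assoc, two_self, add_zero]

theorem flip_inj : Function.Injective flip :=
  Function.LeftInverse.injective flip_flip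

theorem flip_ne (v : V) : flip v ≠ v := by
  obtain ⟨i, s⟩ := v
  simp [flip]

theorem mem_image_flip (σ : Finset V) (v : V) : v ∈ σ.image flip ↔ flip v ∈ σ := by
  constructor
  · intro h
    obtain ⟨w, hw, rfl⟩ := mem_image.1 h
    rwa [flip_flip]
  · intro h
    exact mem_image.2 ⟨_, h, flip_flip v⟩

theorem image_flip_flip (σ : Finset V) : (σ.image flip).image flip = σ := by
  ext v; rw [mem_image_flip, mem_image_flip, flip_flip]

abbrev Ch := Finset V → ZMod 2

def bd (z : Ch) : Ch := fun τ => ∑ v ∈ τᶜ, z (insert v τ)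

def act (z : Ch) : Ch := fun σ => z (σ.image flip)

def PK (k : ℕ) (σ : Finset V) : Prop := σ.card = k + 1 ∧ ∀ v ∈ σ, flip v ∉ σ

def Supp (P : Finset V → Prop) (z : Ch) : Prop := ∀ σ, z σ ≠ 0 → P σ

def Ess : ℕ → Ch → Prop
  | 0, y => ∃ d, Supp (PK 0) d ∧ y = d + act d ∧ bd d ∅ = 1
  | k + 1, y => ∃ d, Supp (PK (k + 1)) d ∧ y = d + act d ∧ Ess k (bd d)

theorem ch_two (z : Ch) : z + z = 0 := by
  funext σ; exact two_self _

theorem act_act (z : Ch) : act (act z) = z := by
  funext σ; simp [act, image_flip_flip]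

theorem act_add (z w : Ch) : act (z + w) = act z + act w := rfl

theorem bd_add (z w : Ch) : bd (z + w) = bd z + bd w := by
  funext τ; simp [bd, sum_add_distrib]

theorem bd_zero : bd 0 = 0 := by
  funext τ; simp [bd]

theorem bd_act (z : Ch) : bd (act z) = act (bd z) := by
  funext τ
  simp only [bd, act]
  refine sum_bij (fun v _ => flip v) ?_ ?_ ?_ ?_
  · intro v hv
    rw [mem_compl, mem_image_flip, flip_flip]; exact mem_compl.1 hv
  · intro v _ w _ h
    exact flip_inj h
  · intro w hw
    refine ⟨flip w, ?_, flip_flip w⟩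
    rw [mem_compl, ← mem_image_flip]; exact mem_compl.1 hw
  · intro v _
    rw [image_insert]

theorem bd_bd (z : Ch) : bd (bd z) = 0 := by
  funext τ
  simp only [bd, Pi.zero_apply]
  have h : ∀ v ∈ τᶜ, ∑ u ∈ (insert v τ)ᶜ, z (insert u (insert v τ))
      = ∑ u ∈ τᶜ, if u ≠ v then z (insert u (insert v τ)) else 0 := by
    intro v _
    rw [← sum_filter]
    refine sum_congr ?_ fun _ _ => rfl
    ext u; simp [and_comm]
  rw [sum_congr rfl h, ← sum_product']
  refine sum_involution (fun p _ => p.swap) ?_ ?_ ?_ ?_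
  · rintro ⟨v, u⟩ _
    by_cases huv : u = v
    · simp [huv]
    · simp only [Prod.swap, ne_eq, huv, not_false_eq_true, if_true, Ne.symm huv]
      rw [insert_comm u v, two_self]
  · rintro ⟨v, u⟩ _ hne h
    simp only [Prod.swap, Prod.mk.injEq] at h
    simp [h.1] at hne
  · rintro ⟨v, u⟩ h
    simp only [mem_product] at h ⊢
    exact ⟨h.2, h.1⟩
  · rintro ⟨v, u⟩ _
    rfl

theorem pk_image {k : ℕ} {σ : Finset V} (h : PK k (σ.image flip)) : PK k σ := by
  refine ⟨by rw [← h.1, card_image_of_injective _ flip_inj], fun v hv hv' => ?_⟩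
  refine h.2 v ((mem_image_flip _ _).2 hv') ((mem_image_flip _ _).2 ?_)
  rwa [flip_flip]

theorem supp_act {k : ℕ} {z : Ch} (h : Supp (PK k) z) : Supp (PK k) (act z) :=
  fun _ hσ => pk_image (h _ hσ)

theorem supp_add {P : Finset V → Prop} {z w : Ch} (h : Supp P z) (h' : Supp P w) :
    Supp P (z + w) := by
  intro σ hσ
  by_cases h1 : z σ = 0
  · apply h'
    intro h2
    apply hσ
    simp [h1, h2]
  · exact h _ h1

theorem bd_ne_zero {z : Ch} {τ : Finset V} (h : bd z τ ≠ 0) :
    ∃ v, v ∉ τ ∧ z (insert v τ) ≠ 0 := by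
  obtain ⟨v, hv, h'⟩ := exists_ne_zero_of_sum_ne_zero h
  exact ⟨v, by simpa using hv, h'⟩

theorem supp_bd {k : ℕ} {z : Ch} (h : Supp (PK (k + 1)) z) : Supp (PK k) (bd z) := by
  intro τ hτ
  obtain ⟨v, hv, h'⟩ := bd_ne_zero hτ
  obtain ⟨h1, h2⟩ := h _ h'
  rw [card_insert_of_notMem hv] at h1
  exact ⟨by omega, fun w hw hw' => h2 w (mem_insert_of_mem hw) (mem_insert_of_mem hw')⟩

/-- A fundamental domain for the free action on proper nonempty sets. -/
def P0 (σ : Finset V) : Prop := ∃ i : Fin 10, (i, (0 : ZMod 2)) ∈ σ ∧ ∀ v ∈ σ, i ≤ v.1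

theorem zmod2_cases (s : ZMod 2) : s = 0 ∨ s = 1 := by
  revert s; decide

theorem p0_iff {k : ℕ} {σ : Finset V} (h : PK k σ) : P0 σ ↔ ¬ P0 (σ.image flip) := by
  have hne : σ.Nonempty := card_pos.1 (by rw [h.1]; omega)
  constructor
  · rintro ⟨i, hi, hm⟩ ⟨j, hj, hm'⟩
    rw [mem_image_flip] at hj
    have h1 := hm _ hj
    have h2 := hm' (flip (i, 0)) (mem_image_of_mem _ hi)
    have hij : i = j := le_antisymm h1 h2
    subst hij
    exact h.2 _ hi hj
  · intro hn
    obtain ⟨v, hv, hm⟩ := exists_min_image σ Prod.fst hne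
    obtain ⟨i, s⟩ := v
    rcases zmod2_cases s with rfl | rfl
    · exact ⟨i, hv, hm⟩
    · exfalso
      apply hn
      refine ⟨i, (mem_image_flip _ _).2 (by simpa [flip] using hv), fun w hw => ?_⟩
      exact hm (flip w) ((mem_image_flip _ _).1 hw)

open Classical in
/-- Restriction of a chain to the sets with a property. -/
noncomputable def res (P : Finset V → Prop) (y : Ch) : Ch := fun σ => if P σ then y σ else 0

theorem res_split (P : Finset V → Prop) {y : Ch} (hy : act y = y)
    (hP : ∀ σ, y σ ≠ 0 → (P σ ↔ ¬ P (σ.image flip))) : y = res P y + act (res P y) := by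
  funext σ
  have h1 : y (σ.image flip) = y σ := congrFun hy σ
  by_cases h0 : y σ = 0
  · simp [res, act, h0, h1]
  · have := hP σ h0
    by_cases hp : P σ
    · simp [res, act, hp, this.1 hp]
    · have hp' : P (σ.image flip) := by
        by_contra h; exact hp (this.2 h)
      simp [res, act, hp, hp', h1]

theorem supp_res {P Q : Finset V → Prop} {y : Ch} (h : Supp Q y) : Supp Q (res P y) := by
  intro σ hσ
  apply h
  intro h0
  apply hσ
  simp [res, h0]

theorem inv_split {k : ℕ} {w : Ch} (hs : Supp (PK k) w) (hw : act w = w) :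
    ∃ u, Supp (PK k) u ∧ w = u + act u :=
  ⟨res P0 w, supp_res hs, res_split P0 hw fun σ hσ => p0_iff (hs σ hσ)⟩

theorem ess_inv {k : ℕ} {y : Ch} (h : Ess k y) : act y = y := by
  cases k with
  | zero => obtain ⟨d, _, rfl, _⟩ := h; rw [act_add, act_act, add_comm]
  | succ k => obtain ⟨d, _, rfl, _⟩ := h; rw [act_add, act_act, add_comm]

theorem ess_supp {k : ℕ} {y : Ch} (h : Ess k y) : Supp (PK k) y := by
  cases k with
  | zero => obtain ⟨d, hd, rfl, _⟩ := h; exact supp_add hd (supp_act hd)
  | succ k => obtain ⟨d, hd, rfl, _⟩ := h; exact supp_add hd (supp_act hd)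

theorem ess_bd {k : ℕ} {y : Ch} (h : Ess (k + 1) y) : bd y = 0 := by
  obtain ⟨d, _, rfl, h⟩ := h
  rw [bd_add, bd_act, ess_inv h, ch_two]

theorem ess_add_bd {k : ℕ} {y u : Ch} (h : Ess k y) (hu : Supp (PK (k + 1)) u) :
    Ess k (y + (bd u + act (bd u))) := by
  cases k with
  | zero =>
    obtain ⟨d, hd, rfl, h⟩ := h
    refine ⟨d + bd u, supp_add hd (supp_bd hu), ?_, ?_⟩
    · rw [act_add]; abel
    · rw [bd_add, bd_bd, add_zero, h]
  | succ k =>
    obtain ⟨d, hd, rfl, h⟩ := h
    refine ⟨d + bd u, supp_add hd (supp_bd hu), ?_, ?_⟩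
    · rw [act_add]; abel
    · rwa [bd_add, bd_bd, add_zero]

theorem ess_cut {k : ℕ} {y d' : Ch} (h : Ess (k + 1) y) (hd' : Supp (PK (k + 1)) d')
    (hy : y = d' + act d') : Ess k (bd d') := by
  obtain ⟨d, hd, hy', h⟩ := h
  have hinv : act (d + d') = d + d' := by
    have e1 := ch_two d
    have e2 := ch_two d'
    have e3 := ch_two (act d')
    rw [act_add]
    have : d + act d = d' + act d' := by rw [← hy, ← hy']
    linear_combination this - e1 + e3
  obtain ⟨u, hu, hw⟩ := inv_split (supp_add hd hd') hinv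
  have := ess_add_bd h hu
  rw [← bd_act, ← bd_add, ← hw, bd_add, ← add_assoc, ch_two, zero_add] at this
  exact this

theorem ess_ne_zero (k : ℕ) : ¬ Ess k 0 := by
  induction k with
  | zero =>
    rintro ⟨d, hd, h0, h1⟩
    have hinv : act d = d := by
      have e1 := ch_two d
      linear_combination - h0 - e1
    obtain ⟨u, _, hw⟩ := inv_split hd hinv
    rw [hw, bd_add, bd_act] at h1
    simp only [act, Pi.add_apply, image_empty, two_self] at h1
    exact absurd h1 (by decide)
  | succ k ih =>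
    intro h
    apply ih
    have := ess_cut (d' := 0) h (fun σ hσ => absurd rfl hσ) (by funext σ; simp [act])
    rwa [bd_zero] at this

theorem ess_exists {k : ℕ} {y : Ch} (h : Ess k y) : ∃ σ, y σ ≠ 0 := by
  by_contra hn
  push Not at hn
  have : y = 0 := funext hn
  exact ess_ne_zero k (this ▸ h)

section tower

variable {α : Type} {a : α → α} {Q : ℕ → List α → Prop} {n : ℕ}

theorem Tower.L_zero (T : Tower α a Q n) (k : ℕ) : T.L k (fun _ => 0) = 0 := by
  have := T.add k (fun _ => 0) (fun _ => 0)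
  simp only [add_zero] at this
  rw [this, two_self]

theorem Tower.L_sum (T : Tower α a Q n) (k : ℕ) {ι : Type} (s : Finset ι) (φ : ι → Co α) :
    T.L k (fun l => ∑ i ∈ s, φ i l) = ∑ i ∈ s, T.L k (φ i) := by
  classical
  induction s using Finset.induction_on with
  | empty => simpa using T.L_zero k
  | insert i s hi ih =>
    simp only [sum_insert hi]
    rw [T.add, ih]

/-- The chain of labels carried by the `k`-th hemisphere. -/
def Tower.ch (T : Tower α a Q n) (lab : α → V) (k : ℕ) : Ch :=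
  fun σ => T.L k (fun l => ind σ (l.map lab))

theorem Tower.bd_ch (T : Tower α a Q n) (lab : α → V) (k : ℕ) (τ : Finset V) :
    bd (T.ch lab k) τ = T.L k (cob (fun l => ind τ (l.map lab))) := by
  simp only [bd, Tower.ch]
  rw [← T.L_sum]
  congr 1
  funext l
  rw [cob_map lab l (ind τ), cob_ind]

theorem Tower.congr (T : Tower α a Q n) {k : ℕ} (hk : k ≤ n) {φ ψ : Co α}
    (h : ∀ l, Q k l → φ l = ψ l) : T.L k φ = T.L k ψ := by
  have h1 := T.supp k hk (fun l => φ l + ψ l) fun l hl => by rw [h l hl, two_self]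
  rw [T.add] at h1
  have h2 := two_self (T.L k ψ)
  linear_combination h1 - h2

theorem Tower.act_ch (T : Tower α a Q n) (lab : α → V) {k : ℕ} (hk : k ≤ n)
    (hlab : ∀ l, Q k l → ∀ v ∈ l, lab (a v) = flip (lab v)) (σ : Finset V) :
    act (T.ch lab k) σ = T.L k (fun l => ind σ ((l.map a).map lab)) := by
  simp only [act, Tower.ch]
  apply T.congr hk
  intro l hl
  have : (l.map a).map lab = (l.map lab).map flip := by
    rw [List.map_map, List.map_map]
    exact List.map_congr_left fun v hv => hlab l hl v hv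
  rw [this, ← ind_map flip flip_inj (l.map lab) (σ.image flip), image_flip_flip]

theorem Tower.ch_supp (T : Tower α a Q n) (lab : α → V) {k : ℕ} (hk : k ≤ n) {σ : Finset V}
    (h : T.ch lab k σ ≠ 0) :
    ∃ l, Q k l ∧ l.length = σ.card ∧ ∀ v, v ∈ σ ↔ ∃ x ∈ l, lab x = v := by
  by_contra hn
  apply h
  apply T.supp k hk
  intro l hl
  by_contra h0
  obtain ⟨h1, h2⟩ := ind_ne_zero _ _ h0
  exact hn ⟨l, hl, by simpa using h1, fun v => by rw [h2, List.mem_map]⟩

theorem Tower.ess (T : Tower α a Q n) (lab : α → V)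
    (hlab : ∀ k l, Q k l → ∀ v ∈ l, lab (a v) = flip (lab v))
    (hQ : ∀ k l, k ≤ n → Q k l → l.length = k + 1 ∧ ∀ x ∈ l, ∀ x' ∈ l, lab x' ≠ flip (lab x))
    (k : ℕ) : k ≤ n → Ess k (T.ch lab k + act (T.ch lab k)) := by
  have hs : ∀ k, k ≤ n → Supp (PK k) (T.ch lab k) := by
    intro k hk σ hσ
    obtain ⟨l, hl, h1, h2⟩ := T.ch_supp lab hk hσ
    obtain ⟨h3, h4⟩ := hQ k l hk hl
    refine ⟨by omega, fun v hv hv' => ?_⟩
    obtain ⟨x, hx, rfl⟩ := (h2 _).1 hv
    obtain ⟨x', hx', h5⟩ := (h2 _).1 hv'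
    exact h4 x hx x' hx' h5
  induction k with
  | zero =>
    intro hk
    refine ⟨_, hs 0 hk, rfl, ?_⟩
    rw [T.bd_ch, T.zero]
    simp [ind]
  | succ k ih =>
    intro hk
    refine ⟨_, hs _ hk, rfl, ?_⟩
    have : bd (T.ch lab (k + 1)) = T.ch lab k + act (T.ch lab k) := by
      funext τ
      rw [T.bd_ch, T.succ k (by omega), Pi.add_apply, T.act_ch lab (by omega) (hlab k)]
      rfl
    rw [this]
    exact ih (by omega)

end tower

end Vale.Agent.P052
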