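import Vale.Agent.P052.Eigen
import Vale.Agent.P052.Finite

namespace Vale.Agent.P052

open Finset

section lists

variable {α β γ : Type} (p : α → Prop) [DecidablePred p] (f : α → β) (g : α → γ)

/-- Images of the entries satisfying `p`. -/
def posL : List α → List β
  | [] => []
  | m :: l => if p m then f m :: posL l else posL l

/-- Images of the entries not satisfying `p`. -/
def negL : List α → List γ
  | [] => []
  | m :: l => if p m then negL l else g m :: negL l

theorem length_posL_negL (l : List α) :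
    (posL p f l).length + (negL p g l).length = l.length := by
  induction l with
  | nil => rfl
  | cons m l ih => by_cases h : p m <;> simp [posL, negL, h] <;> omega

theorem mem_posL {l : List α} {w : β} (h : w ∈ posL p f l) : ∃ m ∈ l, p m ∧ f m = w := by
  induction l with
  | nil => simp [posL] at h
  | cons m l ih =>
    by_cases hm : p m
    · simp only [posL, hm, if_true, List.mem_cons] at h
      rcases h with rfl | h
      · exact ⟨m, by simp, hm, rfl⟩
      · obtain ⟨m', h1, h2⟩ := ih h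
        exact ⟨m', by simp [h1], h2⟩
    · simp only [posL, hm, if_false] at h
      obtain ⟨m', h1, h2⟩ := ih h
      exact ⟨m', by simp [h1], h2⟩

theorem mem_negL {l : List α} {w : γ} (h : w ∈ negL p g l) : ∃ m ∈ l, ¬ p m ∧ g m = w := by
  induction l with
  | nil => simp [negL] at h
  | cons m l ih =>
    by_cases hm : p m
    · simp only [negL, hm, if_true] at h
      obtain ⟨m', h1, h2⟩ := ih h
      exact ⟨m', by simp [h1], h2⟩
    · simp only [negL, hm, if_false, List.mem_cons] at h
      rcases h with rfl | h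
      · exact ⟨m, by simp, hm, rfl⟩
      · obtain ⟨m', h1, h2⟩ := ih h
        exact ⟨m', by simp [h1], h2⟩

theorem cob_prod (l : List α) : ∀ (A : Co γ) (B : Co β),
    cob (fun l' => A (negL p g l') * B (posL p f l')) l
      = cob A (negL p g l) * B (posL p f l) + A (negL p g l) * cob B (posL p f l) := by
  induction l with
  | nil => intro A B; simp [cob, posL, negL]
  | cons m l ih =>
    intro A B
    by_cases hm : p m
    · have := ih A (fun l' => B (f m :: l'))
      simp only [cob, posL, negL, hm, if_true]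
      rw [this]; ring
    · have := ih (fun l' => A (g m :: l')) B
      simp only [cob, posL, negL, hm, if_false]
      rw [this]; ring

end lists

/-- The signed set with positive part `A` and negative part `C`. -/
def mkSet (A C : Finset (Fin 10)) : Finset V :=
  univ.filter fun v => (v.2 = 1 ∧ v.1 ∈ A) ∨ (v.2 = 0 ∧ v.1 ∈ C)

theorem ind_mkSet {α : Type} (p : α → Prop) [DecidablePred p] (g : α → Fin 10) (l : List α) :
    ∀ A C : Finset (Fin 10),
    ind (mkSet A C) (l.map fun m => ((g m, if p m then 1 else 0) : V))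
      = ind C (negL p g l) * ind A (posL p g l) := by
  induction l with
  | nil =>
    intro A C
    have : mkSet A C = ∅ ↔ C = ∅ ∧ A = ∅ := by
      simp only [mkSet, eq_empty_iff_forall_notMem, mem_filter, mem_univ, true_and, not_or, not_and]
      constructor
      · intro h
        exact ⟨fun i => (h (i, 0)).2 rfl, fun i => (h (i, 1)).1 rfl⟩
      · rintro ⟨h1, h2⟩ v
        exact ⟨fun _ => h2 _, fun _ => h1 _⟩
    simp only [List.map_nil, ind, posL, negL, this]
    by_cases h1 : C = ∅ <;> by_cases h2 : A = ∅ <;> simp [h1, h2]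
  | cons m l ih =>
    intro A C
    by_cases hm : p m
    · have e : (mkSet A C).erase (g m, 1) = mkSet (A.erase (g m)) C := by
        ext ⟨i, s⟩
        rcases zmod2_cases s with rfl | rfl <;> simp [mkSet]
      simp only [List.map_cons, ind, posL, negL, hm, if_true, e, ih]
      by_cases h : g m ∈ A <;> simp [mkSet, h]
    · have e : (mkSet A C).erase (g m, 0) = mkSet A (C.erase (g m)) := by
        ext ⟨i, s⟩
        rcases zmod2_cases s with rfl | rfl <;> simp [mkSet]
      simp only [List.map_cons, ind, posL, negL, hm, if_false, e, ih]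
      by_cases h : g m ∈ C <;> simp [mkSet, h]

/-- The cochain given by a function on one entry lists. -/
def sg {β : Type} (g : β → ZMod 2) : List β → ZMod 2
  | [x] => g x
  | _ => 0

theorem sg_add {β : Type} (g g' : β → ZMod 2) (l : List β) :
    sg (fun x => g x + g' x) l = sg g l + sg g' l := by
  match l with
  | [] => simp [sg]
  | [x] => simp [sg]
  | _ :: _ :: _ => simp [sg]

theorem posL_map {α β γ : Type} (p : α → Prop) [DecidablePred p] (f : α → β) (c : β → γ)
    (l : List α) : posL p (fun m => c (f m)) l = (posL p f l).map c := by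
  induction l with
  | nil => rfl
  | cons m l ih => by_cases h : p m <;> simp [posL, h, ih]

theorem ind_single {β : Type} (c : β → Fin 10) (i : Fin 10) (l : List β) :
    ind {i} (l.map c) = sg (fun w => if c w = i then 1 else 0) l := by
  match l with
  | [] => simp [sg, ind]
  | [x] => by_cases h : c x = i <;> simp [sg, ind, h]
  | x :: y :: l => by_cases h : c x = i <;> simp [sg, ind, h]

/-- Unit vectors that are far from orthogonal to every point of colour `i`. -/
def Near (c : E 4 → Fin 10) (ε : ℝ) (i : Fin 10) (y : E 4) : Prop :=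
  ‖y‖ = 1 ∧ ∀ w, ‖w‖ = 1 → c w = i → ε / 2 ≤ |inner ℝ w y|

open Classical in
/-- Indicator of a negative inner product. -/
noncomputable def ng (y w : E 4) : ZMod 2 := if inner ℝ w y < 0 then 1 else 0

theorem ng_pair {a b a' b' r : ℝ} (hr : 0 < r) (ha : r ≤ |a|) (hb : r ≤ |b|) (ha' : r ≤ |a'|)
    (hb' : r ≤ |b'|) (h : |a' * b - a * b'| < 2 * r ^ 2) :
    ((if a < 0 then 1 else 0 : ZMod 2) + if b < 0 then 1 else 0)
      = (if a' < 0 then 1 else 0 : ZMod 2) + if b' < 0 then 1 else 0 := by
  rw [abs_lt] at h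
  obtain ⟨h1, h2⟩ := h
  rcases lt_or_ge a 0 with c1 | c1 <;> rcases lt_or_ge b 0 with c2 | c2 <;>
    rcases lt_or_ge a' 0 with c3 | c3 <;> rcases lt_or_ge b' 0 with c4 | c4 <;>
    simp only [c1, c2, c3, c4, not_lt.2, if_true, not_false_eq_true, if_neg] <;>
    first
    | decide
    | (exfalso
       first | rw [abs_of_neg c1] at ha | rw [abs_of_nonneg c1] at ha
       first | rw [abs_of_neg c2] at hb | rw [abs_of_nonneg c2] at hb
       first | rw [abs_of_neg c3] at ha' | rw [abs_of_nonneg c3] at ha'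
       first | rw [abs_of_neg c4] at hb' | rw [abs_of_nonneg c4] at hb'
       have e1 := mul_le_mul ha' hb hr.le (hr.le.trans ha')
       have e2 := mul_le_mul ha hb' hr.le (hr.le.trans ha)
       nlinarith)

theorem parallel {c : E 4 → Fin 10} {ε η : ℝ} (hε : 0 < ε)
    (hc : ∀ x y, ‖x‖ = 1 → ‖y‖ = 1 → c x = c y → ε ≤ |inner ℝ x y|)
    (hη : η < ε) (hη3 : 4 * η < ε ^ 3) {i j : Fin 10} {x x' y y' : E 4} (hx : ‖x‖ = 1) (hx' : ‖x'‖ = 1)
    (hz : ∀ k, k ≠ i → k ≠ j → ∃ z, ‖z‖ = 1 ∧ c z = k ∧ |inner ℝ x z| ≤ η ∧ |inner ℝ x' z| ≤ η)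
    (hη0 : 0 ≤ η)
    (hi : Near c ε i y) (hj : Near c ε j y) (hi' : Near c ε i y') (hj' : Near c ε j y') :
    ng y x + ng y' x = ng y x' + ng y' x' := by
  have col : ∀ w, ‖w‖ = 1 → (∀ z, ‖z‖ = 1 → |inner ℝ x z| ≤ η → |inner ℝ x' z| ≤ η →
      |inner ℝ w z| < ε) → ε / 2 ≤ |inner ℝ w y| ∧ ε / 2 ≤ |inner ℝ w y'| := by
    intro w hw h
    by_cases h1 : c w = i
    · exact ⟨hi.2 w hw h1, hi'.2 w hw h1⟩
    by_cases h2 : c w = j
    · exact ⟨hj.2 w hw h2, hj'.2 w hw h2⟩
    obtain ⟨z, hz1, hz2, hz3, hz4⟩ := hz _ h1 h2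
    exact absurd (hc w z hw hz1 hz2.symm) (not_le.2 (h z hz1 hz3 hz4))
  obtain ⟨a1, a2⟩ := col x hx fun z _ h _ => h.trans_lt hη
  obtain ⟨a3, a4⟩ := col x' hx' fun z _ _ h => h.trans_lt hη
  have le1 : ∀ u v : E 4, ‖u‖ = 1 → ‖v‖ = 1 → |inner ℝ u v| ≤ 1 := by
    intro u v hu hv
    have := abs_real_inner_le_norm u v
    rwa [hu, hv, mul_one] at this
  set w : E 4 := inner ℝ x' y • x - inner ℝ x y • x' with hw
  have hin : ∀ z, inner ℝ w z = inner ℝ x' y * inner ℝ x z - inner ℝ x y * inner ℝ x' z := by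
    intro z; rw [hw, inner_sub_left, real_inner_smul_left, real_inner_smul_left]
  have hwn : ‖w‖ * ε ≤ 2 * η := by
    by_contra hn
    push Not at hn
    have hw0 : 0 < ‖w‖ := by
      by_contra h0
      have : ‖w‖ = 0 := le_antisymm (not_lt.1 h0) (norm_nonneg _)
      rw [this] at hn; linarith
    have hu : ‖(‖w‖⁻¹ • w : E 4)‖ = 1 := by
      rw [norm_smul, norm_inv, norm_norm, inv_mul_cancel₀ hw0.ne']
    have := (col _ hu ?_).1
    · rw [real_inner_smul_left, hin, mul_comm (inner ℝ x' y), sub_self, mul_zero, abs_zero] at this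
      linarith
    · intro z _ h1 h2
      rw [real_inner_smul_left, abs_mul, abs_inv, abs_norm, inv_mul_lt_iff₀ hw0, hin]
      have b1 := le1 x' y hx' hi.1
      have b2 := le1 x y hx hi.1
      calc |inner ℝ x' y * inner ℝ x z - inner ℝ x y * inner ℝ x' z|
          ≤ |inner ℝ x' y * inner ℝ x z| + |inner ℝ x y * inner ℝ x' z| := abs_sub _ _
        _ = |inner ℝ x' y| * |inner ℝ x z| + |inner ℝ x y| * |inner ℝ x' z| := by
            rw [abs_mul, abs_mul]
        _ ≤ 1 * η + 1 * η := by gcongr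
        _ < ‖w‖ * ε := by linarith
  have hfin : |inner ℝ x' y * inner ℝ x y' - inner ℝ x y * inner ℝ x' y'| < 2 * (ε / 2) ^ 2 := by
    rw [← hin]
    have h1 := abs_real_inner_le_norm w y'
    rw [hi'.1, mul_one] at h1
    have h2 : ‖w‖ * ε < 2 * (ε / 2) ^ 2 * ε := by nlinarith
    exact h1.trans_lt (lt_of_mul_lt_mul_right h2 hε.le)
  unfold ng
  convert ng_pair (half_pos hε) a1 a2 a3 a4 hfin

theorem exists_signs {c : E 4 → Fin 10} {ε : ℝ} (hε : 0 < ε)
    (hc : ∀ x y, ‖x‖ = 1 → ‖y‖ = 1 → c x = c y → ε ≤ |inner ℝ x y|) :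
    ∃ e : Fin 10 → E 4 → ZMod 2,
      (∀ i y, Near c ε i y → e i (-y) = e i y + 1) ∧
      (∀ i y y', (∀ w, ‖w‖ = 1 → c w = i → ng y w = ng y' w) → e i y = e i y') ∧
      (∀ i j y y', Near c ε i y → Near c ε j y → Near c ε i y' → Near c ε j y' →
        e i y + e j y = e i y' + e j y') := by
  classical
  obtain ⟨lam, x, hsel⟩ := exists_selection
  obtain ⟨δ, hδ, hδ1, hδ3⟩ : ∃ δ : ℝ, 0 < δ ∧ 128 * δ < ε ∧ 4 * (128 * δ) < ε ^ 3 := by
    refine ⟨min ε (ε ^ 3) / 1024, by positivity, ?_, ?_⟩
    · have := min_le_left ε (ε ^ 3); linarith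
    · have := min_le_right ε (ε ^ 3)
      have : 0 < ε ^ 3 := by positivity
      linarith
  obtain ⟨T⟩ := exists_tower 9 δ hδ
  let p : E 10 → Prop := fun m => 0 < lam m
  let lab : E 10 → V := fun m => (c (x m), if p m then 1 else 0)
  have horth : ∀ k l, Small 10 δ k l → ∀ m ∈ l, ∀ m' ∈ l, p m → ¬ p m' →
      |inner ℝ (x m) (x m')| ≤ 128 * δ := by
    intro k l hl m hm m' hm' h1 h2
    obtain ⟨a1, a2, a3, -⟩ := hsel m (hl.2.1 m hm)
    obtain ⟨b1, b2, b3, -⟩ := hsel m' (hl.2.1 m' hm')
    exact almost_orth a1 b1 a2 b2 h1 h2 a3 b3 (hl.2.2 m hm m' hm')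
  have hcol : ∀ k l, Small 10 δ k l → ∀ m ∈ l, ∀ m' ∈ l, p m → ¬ p m' → c (x m) ≠ c (x m') := by
    intro k l hl m hm m' hm' h1 h2 h
    have := hc _ _ (hsel m (hl.2.1 m hm)).1 (hsel m' (hl.2.1 m' hm')).1 h
    have := horth k l hl m hm m' hm' h1 h2
    linarith
  have hlab : ∀ k l, Small 10 δ k l → ∀ v ∈ l, lab (-v) = flip (lab v) := by
    intro k l hl v hv
    obtain ⟨-, a2, -, a4, a5⟩ := hsel v (hl.2.1 v hv)
    have h0 : lam v ≠ 0 := by intro h; rw [h] at a2; norm_num at a2
    simp only [lab, flip, p, a4, a5]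
    rcases lt_or_gt_of_ne h0 with h | h
    · simp [h, not_lt.2 h.le]
    · simp only [h, if_true, Left.neg_pos_iff, not_lt.2 h.le, if_false]
      congr 1
  have hess := T.ess lab hlab (fun k l _ hl => ⟨hl.1, fun m hm m' hm' h => by
    have h1 : c (x m') = c (x m) := congrArg Prod.fst h
    have h2 : (if p m' then 1 else 0 : ZMod 2) = (if p m then 1 else 0) + 1 := congrArg Prod.snd h
    by_cases a : p m <;> by_cases b : p m'
    · simp [a, b] at h2
    · exact hcol k l hl m hm m' hm' a b h1.symm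
    · exact hcol k l hl m' hm' m hm b a h1
    · simp [a, b] at h2⟩) 9 le_rfl
  let Y : Co (E 10) → ZMod 2 := fun φ => T.L 9 φ + T.L 9 (fun l => φ (l.map Neg.neg))
  have Yadd : ∀ φ ψ, Y (fun l => φ l + ψ l) = Y φ + Y ψ := by
    intro φ ψ
    simp only [Y]
    rw [T.add, T.add 9 (fun l => φ (l.map Neg.neg)) (fun l => ψ (l.map Neg.neg))]; ring
  have hneg : ∀ l, Small 10 δ 9 l → Small 10 δ 9 (l.map Neg.neg) := by
    intro l hl
    refine ⟨by simpa using hl.1, ?_, ?_⟩
    · intro v hv
      obtain ⟨w, hw, rfl⟩ := List.mem_map.1 hv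
      simpa using hl.2.1 w hw
    · intro v hv w hw
      obtain ⟨v', hv', rfl⟩ := List.mem_map.1 hv
      obtain ⟨w', hw', rfl⟩ := List.mem_map.1 hw
      have := hl.2.2 w' hw' v' hv'
      rwa [show -v' - -w' = w' - v' by abel]
  have Ycongr : ∀ φ ψ, (∀ l, Small 10 δ 9 l → φ l = ψ l) → Y φ = Y ψ := by
    intro φ ψ h
    simp only [Y]
    rw [T.congr le_rfl h, T.congr le_rfl fun l hl => h _ (hneg l hl)]
  have Ycob : ∀ φ, Y (cob φ) = 0 := by
    intro φ
    simp only [Y]
    have e : (fun l : List (E 10) => cob φ (l.map Neg.neg))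
        = cob (fun l => φ (l.map Neg.neg)) := funext fun l => (cob_map _ l φ).symm
    rw [e, T.succ 8 (by norm_num), T.succ 8 (by norm_num)]
    have : (fun l : List (E 10) => φ ((l.map Neg.neg).map Neg.neg)) = φ := by
      funext l; simp
    simp only [this]
    grind
  let Ei : Fin 10 → (E 4 → ZMod 2) → ZMod 2 := fun i g =>
    Y (fun l => ind (univ.erase i) (negL p (fun m => c (x m)) l) * sg g (posL p x l))
  have Eadd : ∀ i g g', Ei i (fun w => g w + g' w) = Ei i g + Ei i g' := by
    intro i g g'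
    simp only [Ei]
    rw [← Yadd]
    congr 1
    funext l
    rw [sg_add, mul_add]
  have Econgr : ∀ i g g', (∀ w, ‖w‖ = 1 → c w = i → g w = g' w) → Ei i g = Ei i g' := by
    intro i g g' h
    apply Ycongr
    intro l hl
    beta_reduce
    by_cases h0 : ind (univ.erase i) (negL p (fun m => c (x m)) l) = 0
    · rw [h0, zero_mul, zero_mul]
    obtain ⟨h1, h2⟩ := ind_ne_zero _ _ h0
    have h3 := length_posL_negL p x (fun m => c (x m)) l
    rw [h1, hl.1, card_erase_of_mem (mem_univ i)] at h3
    obtain ⟨w, hw⟩ := List.length_eq_one_iff.1 (by simpa using h3 : (posL p x l).length = 1)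
    obtain ⟨m, hm, hpm, rfl⟩ := mem_posL p x (l := l) (w := w) (by rw [hw]; simp)
    rw [hw]
    simp only [sg]
    rw [h _ (hsel m (hl.2.1 m hm)).1]
    by_contra hne
    obtain ⟨m', hm', hpm', h5⟩ := mem_negL p _ ((h2 (c (x m))).1 (by simpa using hne))
    exact hcol 9 l hl m hm m' hm' hpm hpm' h5.symm
  have Eone : ∀ i, Ei i (fun _ => 1) = 1 := by
    intro i
    rw [Econgr i _ (fun w => if c w = i then 1 else 0) fun w _ hw => by simp [hw]]
    have h1 := top_all hess (fun j => if j = i then 1 else 0)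
    have h2 : graph (fun j => if j = i then 1 else 0) = mkSet {i} (univ.erase i) := by
      ext ⟨j, s⟩
      rw [mem_graph]
      by_cases hj : j = i <;> simp [mkSet, hj]
    rw [h2, Pi.add_apply, T.act_ch lab le_rfl (hlab 9)] at h1
    refine Eq.trans ?_ h1
    have h3 : ∀ l, ind (univ.erase i) (negL p (fun m => c (x m)) l)
        * sg (fun w => if c w = i then 1 else 0) (posL p x l)
        = ind (mkSet {i} (univ.erase i)) (l.map lab) := by
      intro l
      rw [ind_mkSet p (fun m => c (x m)) l, posL_map p x c, ind_single]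
    simp only [Ei, Y, h3]
    rfl
  refine ⟨fun i y => Ei i (ng y), ?_, fun i y y' h => Econgr i _ _ h, ?_⟩
  · intro i y hy
    show Ei i (ng (-y)) = Ei i (ng y) + 1
    rw [← Eone i, ← Eadd]
    apply Econgr
    intro w hw hwi
    have h1 := hy.2 w hw hwi
    have h0 : inner ℝ w y ≠ 0 := by intro h; rw [h, abs_zero] at h1; linarith
    unfold ng
    rw [inner_neg_right]
    rcases lt_or_gt_of_ne h0 with h | h
    · simp only [h, if_true, Left.neg_neg_iff, not_lt.2 h.le, if_false]; decide
    · simp [h, not_lt.2 h.le]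
  · intro i j y y' hi hj hi' hj'
    by_cases hij : i = j
    · subst hij; rw [two_self, two_self]
    show Ei i (ng y) + Ei j (ng y) = Ei i (ng y') + Ei j (ng y')
    suffices h : Ei i (fun w => ng y w + ng y' w) + Ei j (fun w => ng y w + ng y' w) = 0 by
      rw [Eadd, Eadd] at h
      grind
    set g : E 4 → ZMod 2 := fun w => ng y w + ng y' w with hg
    let C : Finset (Fin 10) := (univ.erase i).erase j
    rw [← Ycob (fun l => ind C (negL p (fun m => c (x m)) l) * sg g (posL p x l))]
    simp only [Ei]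
    rw [← Yadd]
    apply Ycongr
    intro l hl
    have hC : Cᶜ = {i, j} := by
      ext k; simp only [C, mem_compl, mem_erase, mem_univ, mem_insert, mem_singleton]; tauto
    have hCi : insert i C = univ.erase j := by
      ext k
      by_cases hk : k = i
      · simp [hk, hij]
      · simp [C, hk]
    have hCj : insert j C = univ.erase i := by
      ext k
      by_cases hk : k = j
      · simp [hk, Ne.symm hij]
      · simp [C, hk]
    rw [cob_prod, cob_ind, hC, sum_pair hij, hCi, hCj]
    have hz : ind C (negL p (fun m => c (x m)) l) * cob (sg g) (posL p x l) = 0 := by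
      by_cases h0 : ind C (negL p (fun m => c (x m)) l) = 0
      · rw [h0, zero_mul]
      obtain ⟨h1, h2⟩ := ind_ne_zero _ _ h0
      have h3 := length_posL_negL p x (fun m => c (x m)) l
      have hCc : C.card = 8 := by
        rw [card_erase_of_mem (by simp [Ne.symm hij]), card_erase_of_mem (mem_univ i)]; simp
      rw [h1, hl.1, hCc] at h3
      obtain ⟨w, w', hw⟩ := List.length_eq_two.1 (by omega : (posL p x l).length = 2)
      obtain ⟨m, hm, hpm, rfl⟩ := mem_posL p x (l := l) (w := w) (by rw [hw]; simp)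
      obtain ⟨m', hm', hpm', rfl⟩ := mem_posL p x (l := l) (w := w') (by rw [hw]; simp)
      have key := parallel hε hc hδ1 hδ3 (hsel m (hl.2.1 m hm)).1 (hsel m' (hl.2.1 m' hm')).1
        (i := i) (j := j) (fun k hki hkj => by
          obtain ⟨z, hz, hpz, h5⟩ := mem_negL p _ ((h2 k).1 (by simp [C, hki, hkj]))
          exact ⟨x z, (hsel z (hl.2.1 z hz)).1, h5, horth 9 l hl m hm z hz hpm hpz,
            horth 9 l hl m' hm' z hz hpm' hpz⟩) (by positivity) hi hj hi' hj'
      rw [hw]
      simp only [cob, sg, hg, key, add_zero, two_self, mul_zero]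
    rw [hz]; ring

end Vale.Agent.P052
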